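import Vale.Agent.P141.H338.Lab3
import Vale.Agent.P141.H70.Prj
import Vale.Agent.P141.H204.Vec

/-!
# P141, CE, module Lab, part 4: vectors

A finite label set `κ` is put into `lbs L` by an injective map `e`; vectors of
`EuclideanSpace ℝ κ` become label vectors (`cv`), orthonormal systems become label projections
(`pj`), and the labelled S4 energies are the slices of `mo4t`, `mo4v`.
-/

namespace Vale.Agent.P141.H338

open Finset Matrix Vale.Agent.P075 Vale.Agent.P141.PL Vale.Agent.P141.PL.H588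
open Vale.Agent.P141.H736 Vale.Agent.P141.H958
open Vale.Agent.P141.H170 (Prj MidP evP)
open Vale.Agent.P141.PL.H315 (avg)
open Vale.Agent.P141.H70 (Ons prj)

noncomputable section

open scoped Classical

/-! ### label vectors -/

section coord

variable {κ : Type*} [Fintype κ] {L : ℕ} {e : κ → ℤ}

/-- The label vector of a family of numbers indexed by `κ`. -/
def cu (e : κ → ℤ) (f : κ → ℝ) (l : ℤ) : ℝ := ∑ i, if e i = l then f i else 0

theorem cu_add (f g : κ → ℝ) (l : ℤ) : cu e (fun i => f i + g i) l = cu e f l + cu e g l := by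
  unfold cu
  rw [← sum_add_distrib]
  refine sum_congr rfl fun i _ => ?_
  split_ifs <;> simp

theorem cu_smul (a : ℝ) (f : κ → ℝ) (l : ℤ) : cu e (fun i => a * f i) l = a * cu e f l := by
  unfold cu
  rw [mul_sum]
  refine sum_congr rfl fun i _ => ?_
  split_ifs <;> simp

theorem cu_smul_right (a : ℝ) (f : κ → ℝ) (l : ℤ) : cu e (fun i => f i * a) l = cu e f l * a := by
  unfold cu
  rw [sum_mul]
  refine sum_congr rfl fun i _ => ?_
  split_ifs <;> simp

theorem cu_sub (f g : κ → ℝ) (l : ℤ) : cu e (fun i => f i - g i) l = cu e f l - cu e g l := by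
  unfold cu
  rw [← sum_sub_distrib]
  refine sum_congr rfl fun i _ => ?_
  split_ifs <;> simp

theorem cu_sum {ι : Type*} (s : Finset ι) (f : ι → κ → ℝ) (l : ℤ) :
    cu e (fun i => ∑ j ∈ s, f j i) l = ∑ j ∈ s, cu e (f j) l := by
  unfold cu
  rw [sum_comm]
  refine sum_congr rfl fun i _ => ?_
  split_ifs
  · rfl
  · simp

theorem cu_apply (he : Function.Injective e) (f : κ → ℝ) (i : κ) : cu e f (e i) = f i := by
  unfold cu
  rw [sum_eq_single i]
  · rw [if_pos rfl]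
  · intro j _ hj
    rw [if_neg fun h => hj (he h)]
  · intro h
    exact absurd (mem_univ i) h

/-- Sums over the labels. -/
theorem sum_cu_mul (hm : ∀ i, e i ∈ lbs L) (f : κ → ℝ) (g : ℤ → ℝ) :
    ∑ l ∈ lbs L, cu e f l * g l = ∑ i, f i * g (e i) := by
  unfold cu
  simp only [sum_mul]
  rw [sum_comm]
  refine sum_congr rfl fun i _ => ?_
  rw [sum_eq_single_of_mem (e i) (hm i)]
  · rw [if_pos rfl]
  · intro l _ hl
    rw [if_neg fun h => hl h.symm, zero_mul]

theorem sum_cu_cu (he : Function.Injective e) (hm : ∀ i, e i ∈ lbs L) (f g : κ → ℝ) :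
    ∑ l ∈ lbs L, cu e f l * cu e g l = ∑ i, f i * g i := by
  rw [sum_cu_mul hm]
  exact sum_congr rfl fun i _ => by rw [cu_apply he]

end coord

/-! ### S4 in averages -/

theorem avg_iv (k : ℕ) (m : ℤ) (f : ℤ → ℝ) : avg (iv k m) f = (2 ^ k : ℝ)⁻¹ * ∑ x ∈ iv k m, f x := by
  unfold avg
  congr 2
  have h : (iv k m).card = 2 ^ k := by
    unfold iv
    rw [Int.card_Ico, add_sub_cancel_left]
    have : (2 ^ k : ℤ) = ((2 ^ k : ℕ) : ℤ) := by push_cast; ring
    rw [this, Int.toNat_natCast]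
  rw [h]
  push_cast
  ring

/-- Label on the left variable, in averages. -/
theorem s4L_avg (L a b : ℕ) (F : ℤ → ℤ → ℤ → ℝ) (n m : ℤ) :
    s4L L a b F n m = avg (iv b m) fun y => avg (iv b m) fun y' =>
      (∑ l ∈ lbs L, avg (iv a n) fun x => F l x y * F l x y') ^ 2 := by
  unfold s4L
  simp only [avg_iv, ← mul_sum]
  rw [← mul_assoc, mul_sum, mul_sum]
  refine sum_congr rfl fun y _ => ?_
  rw [mul_sum, mul_sum]
  refine sum_congr rfl fun y' _ => ?_
  rw [sum_comm (s := lbs L)]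
  have h3 : (2 : ℝ) ^ a ≠ 0 := by positivity
  have h4 : (2 : ℝ) ^ b ≠ 0 := by positivity
  field_simp

/-- Label on the right variable, in averages. -/
theorem s4R_avg (L a b : ℕ) (F : ℤ → ℤ → ℤ → ℝ) (n m : ℤ) :
    s4R L a b F n m = avg (iv a n) fun x => avg (iv a n) fun x' =>
      (∑ l ∈ lbs L, avg (iv b m) fun y => F l x y * F l x' y) ^ 2 := by
  rw [s4R_swap, s4L_avg]

section moments

variable {κ : Type*} [Fintype κ] {L : ℕ} {e : κ → ℤ}

/-- The labelled function of a family of functions indexed by `κ`. -/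
def lf (e : κ → ℤ) (u : κ → ℤ → ℤ → ℝ) : ℤ → ℤ → ℤ → ℝ := fun l x y => cu e (fun i => u i x y) l

theorem lf_mul (u : κ → ℤ → ℤ → ℝ) (G : ℤ → ℤ → ℝ) (l x y : ℤ) :
    lf e (fun i x y => u i x y * G x y) l x y = lf e u l x y * G x y := cu_smul_right ..

theorem sum_lf (he : Function.Injective e) (hm : ∀ i, e i ∈ lbs L) (u v : κ → ℤ → ℤ → ℝ)
    (x y x' y' : ℤ) :
    ∑ l ∈ lbs L, lf e u l x y * lf e v l x' y' = ∑ i, u i x y * v i x' y' := sum_cu_cu he hm _ _

/-- A sum over the labels of a quadratic form in the functions. -/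
theorem sum_lf_avg (he : Function.Injective e) (hm : ∀ i, e i ∈ lbs L) {X : Type*} (B : Finset X)
    (u v : κ → ℤ → ℤ → ℝ) (p q : X → ℤ × ℤ) :
    ∑ l ∈ lbs L, avg B (fun x => lf e u l (p x).1 (p x).2 * lf e v l (q x).1 (q x).2) =
      ∑ i, avg B (fun x => u i (p x).1 (p x).2 * v i (q x).1 (q x).2) := by
  unfold avg
  rw [← mul_sum, ← mul_sum, sum_comm, sum_comm (s := univ)]
  congr 1
  exact sum_congr rfl fun x _ => sum_lf he hm u v _ _ _ _

theorem s4L_lf (he : Function.Injective e) (hm : ∀ i, e i ∈ lbs L) (a b : ℕ)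
    (u : κ → ℤ → ℤ → ℝ) (n m : ℤ) :
    s4L L a b (lf e u) n m = avg (iv b m) fun y => avg (iv b m) fun y' =>
      (∑ i, avg (iv a n) fun x => u i x y * u i x y') ^ 2 := by
  rw [s4L_avg]
  congr 1
  funext y
  congr 1
  funext y'
  rw [sum_lf_avg he hm (iv a n) u u (fun x => (x, y)) fun x => (x, y')]

theorem s4R_lf (he : Function.Injective e) (hm : ∀ i, e i ∈ lbs L) (a b : ℕ)
    (u : κ → ℤ → ℤ → ℝ) (n m : ℤ) :
    s4R L a b (lf e u) n m = avg (iv a n) fun x => avg (iv a n) fun x' =>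
      (∑ i, avg (iv b m) fun y => u i x y * u i x' y) ^ 2 := by
  rw [s4R_avg]
  congr 1
  funext x
  congr 1
  funext x'
  rw [sum_lf_avg he hm (iv b m) u u (fun y => (x, y)) fun y => (x', y)]

/-- **`mo4t` is the average of the labelled S4 energies of the slices**, label on the first
vertex. -/
theorem mo4t_eq (he : Function.Injective e) (hm : ∀ i, e i ∈ lbs L) (a b : ℕ) (n m : ℤ)
    (C : Finset ℤ) (u : κ → ℤ → ℤ → ℝ) (G : ℤ × ℤ × ℤ → ℝ) :
    H204.mo4t (iv a n) (iv b m) C u G =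
      avg C fun z => s4L L a b (lf e fun i => H769.sl (u i) G z) n m := by
  unfold H204.mo4t
  congr 1
  funext z
  rw [s4L_lf he hm]

/-- **`mo4v`**: label on the second vertex. -/
theorem mo4v_eq (he : Function.Injective e) (hm : ∀ i, e i ∈ lbs L) (a b : ℕ) (n m : ℤ)
    (C : Finset ℤ) (u : κ → ℤ → ℤ → ℝ) (G : ℤ × ℤ × ℤ → ℝ) :
    H204.mo4v (iv a n) (iv b m) C u G =
      avg C fun z => s4R L a b (lf e fun i => H769.sl (u i) G z) n m := by
  unfold H204.mo4v
  congr 1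
  funext z
  rw [s4R_lf he hm]
  rfl

end moments

/-! ### vectors of a Euclidean space -/

section vec

variable {κ : Type*} [Fintype κ] {L : ℕ} {e : κ → ℤ}

/-- The label vector of a vector. -/
def cv (e : κ → ℤ) (v : EuclideanSpace ℝ κ) : ℤ → ℝ := cu e fun i => v i

theorem cv_sub (u v : EuclideanSpace ℝ κ) (l : ℤ) : cv e (u - v) l = cv e u l - cv e v l :=
  cu_sub ..

theorem cv_add (u v : EuclideanSpace ℝ κ) (l : ℤ) : cv e (u + v) l = cv e u l + cv e v l :=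
  cu_add ..

theorem cv_smul (a : ℝ) (v : EuclideanSpace ℝ κ) (l : ℤ) : cv e (a • v) l = a * cv e v l :=
  cu_smul ..

theorem cv_zero (l : ℤ) : cv e (0 : EuclideanSpace ℝ κ) l = 0 := by
  unfold cv cu
  simp

theorem cv_sum {ι : Type*} (s : Finset ι) (v : ι → EuclideanSpace ℝ κ) (l : ℤ) :
    cv e (∑ j ∈ s, v j) l = ∑ j ∈ s, cv e (v j) l := by
  unfold cv
  rw [← cu_sum]
  congr 1
  funext i
  simp

theorem inner_cv (he : Function.Injective e) (hm : ∀ i, e i ∈ lbs L)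
    (u v : EuclideanSpace ℝ κ) : ∑ l ∈ lbs L, cv e u l * cv e v l = inner ℝ u v := by
  unfold cv
  rw [sum_cu_cu he hm, PiLp.inner_apply]
  refine sum_congr rfl fun i _ => ?_
  simp [mul_comm]

theorem ldot_cv (he : Function.Injective e) (hm : ∀ i, e i ∈ lbs L)
    (u v : EuclideanSpace ℝ κ) : ldot L (cv e u) (cv e v) = inner ℝ u v := inner_cv he hm u v

theorem norm_cv (he : Function.Injective e) (hm : ∀ i, e i ∈ lbs L)
    (u : EuclideanSpace ℝ κ) : ∑ l ∈ lbs L, cv e u l ^ 2 = ‖u‖ ^ 2 := by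
  rw [← real_inner_self_eq_norm_sq, ← inner_cv he hm]
  exact sum_congr rfl fun l _ => pow_two _

/-- The label matrix of an orthonormal system. -/
def pj {ι : Type*} [Fintype ι] (e : κ → ℤ) (d : ι → EuclideanSpace ℝ κ) (l l' : ℤ) : ℝ :=
  ∑ i, cv e (d i) l * cv e (d i) l'

variable {ι : Type*} [Fintype ι]

theorem pj_zero (l l' : ℤ) : pj e (fun _ : ι => (0 : EuclideanSpace ℝ κ)) l l' = 0 := by
  unfold pj
  simp [cv_zero]

theorem pj_symm (d : ι → EuclideanSpace ℝ κ) (l l' : ℤ) : pj e d l l' = pj e d l' l :=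
  sum_congr rfl fun _ _ => mul_comm _ _

/-- **The label matrix acts as the projection.** -/
theorem lap_pj (he : Function.Injective e) (hm : ∀ i, e i ∈ lbs L) (d : ι → EuclideanSpace ℝ κ)
    (v : EuclideanSpace ℝ κ) (l : ℤ) : lap L (pj e d) (cv e v) l = cv e (prj d v) l := by
  unfold lap pj prj
  rw [cv_sum]
  simp only [mul_sum]
  rw [sum_comm]
  refine sum_congr rfl fun i _ => ?_
  rw [cv_smul, ← inner_cv he hm, sum_mul]
  exact sum_congr rfl fun l' _ => by ring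

theorem pj_idem (he : Function.Injective e) (hm : ∀ i, e i ∈ lbs L)
    {d : ι → EuclideanSpace ℝ κ} (hd : Ons d) (l l'' : ℤ) :
    ∑ l' ∈ lbs L, pj e d l l' * pj e d l' l'' = pj e d l l'' := by
  unfold pj
  have h1 : ∀ l' ∈ lbs L, (∑ i, cv e (d i) l * cv e (d i) l') * ∑ j, cv e (d j) l' * cv e (d j) l'' =
      ∑ i, ∑ j, cv e (d i) l * cv e (d j) l'' * (cv e (d i) l' * cv e (d j) l') := by
    intro l' _
    rw [sum_mul_sum]
    exact sum_congr rfl fun i _ => sum_congr rfl fun j _ => by ring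
  rw [sum_congr rfl h1, sum_comm]
  refine sum_congr rfl fun i _ => ?_
  rw [sum_comm]
  have h2 : ∀ j ∈ (univ : Finset ι), ∑ l' ∈ lbs L, cv e (d i) l * cv e (d j) l'' *
      (cv e (d i) l' * cv e (d j) l') = cv e (d i) l * cv e (d j) l'' * inner ℝ (d i) (d j) := by
    intro j _
    rw [← mul_sum, inner_cv he hm]
  rw [sum_congr rfl h2, sum_eq_single i]
  · rcases hd.unit i with h0 | h0
    · rw [h0, cv_zero, cv_zero]
      ring
    · rw [real_inner_self_eq_norm_sq, h0]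
      ring
  · intro j _ hj
    rw [hd.orth i j hj.symm, mul_zero]
  · intro h
    exact absurd (mem_univ i) h

/-- **Orthonormal systems at the points of a block give label projections.** -/
theorem lprj_pj (he : Function.Injective e) (hm : ∀ i, e i ∈ lbs L) {B : Finset ℤ}
    {d : ℤ → ι → EuclideanSpace ℝ κ} (hd : ∀ x ∈ B, Ons (d x)) :
    LPrj L B fun x => pj e (d x) where
  symm := fun x _ l _ l' _ => pj_symm (d x) l l'
  idem := fun x hx l _ l'' _ => pj_idem he hm (hd x hx) l l''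

/-- The labelled function of a vector valued function `w` (pivot variable first), multiplied by
a companion `g`; label on the left variable. -/
def vL (e : κ → ℤ) (w : ℤ → ℤ → EuclideanSpace ℝ κ) (g : ℤ → ℤ → ℝ) : ℤ → ℤ → ℤ → ℝ :=
  fun l x y => cv e (w x y) l * g x y

/-- The same function with exchanged variables: outer variable `y`, label on the right (pivot)
variable `x`. -/
def vR (e : κ → ℤ) (w : ℤ → ℤ → EuclideanSpace ℝ κ) (g : ℤ → ℤ → ℝ) : ℤ → ℤ → ℤ → ℝ :=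
  fun l y x => cv e (w x y) l * g x y

theorem encL_vL_swap (w : ℤ → ℤ → EuclideanSpace ℝ κ) (g : ℤ → ℤ → ℝ) (x y : ℤ) :
    encL L (vL e w g) x y = encR L (vR e w g) y x := rfl

theorem vL_lf (w : ℤ → ℤ → EuclideanSpace ℝ κ) (g : ℤ → ℤ → ℝ) :
    vL e w g = lf e fun i x y => w x y i * g x y := by
  funext l x y
  exact (cu_smul_right ..).symm

/-- Labelled sums are inner products. -/
theorem sum_vL (he : Function.Injective e) (hm : ∀ i, e i ∈ lbs L)
    (w w' : ℤ → ℤ → EuclideanSpace ℝ κ) (g g' : ℤ → ℤ → ℝ) (x y x' y' : ℤ) :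
    ∑ l ∈ lbs L, vL e w g l x y * vL e w' g' l x' y' =
      inner ℝ (w x y) (w' x' y') * (g x y * g' x' y') := by
  rw [← inner_cv he hm, sum_mul]
  exact sum_congr rfl fun l _ => by unfold vL; ring

theorem lprL_vL (he : Function.Injective e) (hm : ∀ i, e i ∈ lbs L)
    (d : ℤ → ι → EuclideanSpace ℝ κ) (w : ℤ → ℤ → EuclideanSpace ℝ κ) (g : ℤ → ℤ → ℝ)
    (l x y : ℤ) :
    lprL L (fun x => pj e (d x)) (vL e w g) l x y = vL e (fun x y => prj (d x) (w x y)) g l x y := by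
  unfold lprL vL
  rw [← lap_pj he hm]
  unfold lap
  rw [sum_mul]
  exact sum_congr rfl fun l' _ => by ring

theorem lprR_vR (he : Function.Injective e) (hm : ∀ i, e i ∈ lbs L)
    (d : ℤ → ι → EuclideanSpace ℝ κ) (w : ℤ → ℤ → EuclideanSpace ℝ κ) (g : ℤ → ℤ → ℝ)
    (l y x : ℤ) :
    lprR L (fun x => pj e (d x)) (vR e w g) l y x = vR e (fun x y => prj (d x) (w x y)) g l y x := by
  unfold lprR vR
  rw [← lap_pj he hm]
  unfold lap
  rw [sum_mul]
  exact sum_congr rfl fun l' _ => by ring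

/-- The S4 energy of a vector valued slice, label on the left (pivot) variable. -/
theorem s4L_vL (he : Function.Injective e) (hm : ∀ i, e i ∈ lbs L) (a b : ℕ)
    (w : ℤ → ℤ → EuclideanSpace ℝ κ) (g : ℤ → ℤ → ℝ) (n m : ℤ) :
    s4L L a b (vL e w g) n m = avg (iv b m) fun y => avg (iv b m) fun y' =>
      (avg (iv a n) fun x => inner ℝ (w x y) (w x y') * (g x y * g x y')) ^ 2 := by
  rw [s4L_avg]
  congr 1
  funext y
  congr 1
  funext y'
  congr 1
  unfold avg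
  rw [← mul_sum, sum_comm]
  congr 1
  exact sum_congr rfl fun x _ => sum_vL he hm w w g g x y x y'

theorem s4R_vR (a b : ℕ) (w : ℤ → ℤ → EuclideanSpace ℝ κ) (g : ℤ → ℤ → ℝ) (n m : ℤ) :
    s4R L a b (vR e w g) n m = s4L L b a (vL e w g) m n := s4R_swap ..

/-- The `L²` norm. -/
theorem sqb_vL (he : Function.Injective e) (hm : ∀ i, e i ∈ lbs L) (k : ℕ)
    (w : ℤ → ℤ → EuclideanSpace ℝ κ) (g : ℤ → ℤ → ℝ) (n m : ℤ) :
    ∑ l ∈ lbs L, sqb k n m (vL e w g l) =
      ∑ x ∈ iv k n, ∑ y ∈ iv k m, ‖w x y‖ ^ 2 * g x y ^ 2 := by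
  unfold sqb
  rw [sum_comm]
  conv_lhs =>
    arg 2
    ext y
    rw [sum_comm]
  rw [sum_comm]
  refine sum_congr rfl fun x _ => sum_congr rfl fun y _ => ?_
  have h := sum_vL he hm w w g g x y x y
  rw [real_inner_self_eq_norm_sq] at h
  rw [pow_two (g x y), ← h]
  exact sum_congr rfl fun l _ => pow_two _

theorem sqb_vR (he : Function.Injective e) (hm : ∀ i, e i ∈ lbs L) (k : ℕ)
    (w : ℤ → ℤ → EuclideanSpace ℝ κ) (g : ℤ → ℤ → ℝ) (n m : ℤ) :
    ∑ l ∈ lbs L, sqb k n m (vR e w g l) =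
      ∑ x ∈ iv k m, ∑ y ∈ iv k n, ‖w x y‖ ^ 2 * g x y ^ 2 := by
  rw [← sqb_vL he hm]
  exact sum_congr rfl fun l _ => sqb_swap ..

/-- The trace form. -/
theorem trace_vR (he : Function.Injective e) (hm : ∀ i, e i ∈ lbs L) (a b : ℕ)
    (w : ℤ → ℤ → EuclideanSpace ℝ κ) (g : ℤ → ℤ → ℝ) (n m : ℤ) :
    (Xg (a + L) (b + L) (encR L (vR e w g)) n m).trace =
      avg (iv b m) fun x => avg (iv a n) fun y => ‖w x y‖ ^ 2 * g x y ^ 2 := by
  rw [trace_encR]
  simp only [trace_Xg_gk, gk, avg_iv]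
  rw [sum_comm, mul_sum]
  refine sum_congr rfl fun x _ => ?_
  rw [← mul_sum, sum_comm, ← mul_assoc, mul_inv, mul_comm ((2 ^ a : ℝ)⁻¹)]
  congr 1
  refine sum_congr rfl fun y _ => ?_
  have h := sum_vL he hm w w g g x y x y
  rw [real_inner_self_eq_norm_sq] at h
  rw [pow_two (g x y), ← h]
  rfl

/-- **The label event of 70 / 939** (`w'` = `w` minus its projection on the directions `d`), in
the orientation outer variable = row `y`, middle variable = pivot `x`. -/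
theorem midP_vR (he : Function.Injective e) (hm : ∀ i, e i ∈ lbs L) {N k : ℕ} {R S : ℤ}
    {d : ℤ → ℤ → ℤ → ι → EuclideanSpace ℝ κ} {w w' : ℤ → ℤ → EuclideanSpace ℝ κ}
    {g : ℤ → ℤ → ℝ} (hd : ∀ n ∈ iv (N - k) R, ∀ m ∈ iv (N - k) S, ∀ x ∈ iv k m, Ons (d n m x))
    (hw : ∀ n ∈ iv (N - k) R, ∀ m ∈ iv (N - k) S, ∀ y ∈ iv k n, ∀ x ∈ iv k m,
      w' x y = w x y - prj (d n m x) (w x y)) :
    MidP (N + L) R S (k + L) (fun n m => PM L (k + L) (fun x => pj e (d n m x)) m)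
      (encR L (vR e w g)) (encR L (vR e w' g)) := by
  refine midP_encR (fun n hn m hm' => lprj_pj he hm (hd n hn m hm')) ?_
  intro n hn m hm' l _ y hy x hx
  rw [lprR_vR he hm]
  unfold vR
  rw [hw n hn m hm' y hy x hx, cv_sub]
  ring

/-- Path form. -/
theorem midP_vR_shF (he : Function.Injective e) (hm : ∀ i, e i ∈ lbs L) {N : ℕ} {R S : ℤ}
    {d : ℕ → ℤ → ℤ → ℤ → ι → EuclideanSpace ℝ κ} {w w' : ℕ → ℤ → ℤ → EuclideanSpace ℝ κ}
    {g : ℕ → ℤ → ℤ → ℝ} (h0 : vR e (w 0) (g 0) = 0)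
    (hd : ∀ k < N, ∀ n ∈ iv (N - k) R, ∀ m ∈ iv (N - k) S, ∀ x ∈ iv k m, Ons (d k n m x))
    (hw : ∀ k < N, ∀ n ∈ iv (N - k) R, ∀ m ∈ iv (N - k) S, ∀ y ∈ iv k n, ∀ x ∈ iv k m,
      w' k x y = w (k + 1) x y - prj (d k n m x) (w (k + 1) x y)) :
    ∀ K < N + L, MidP (N + L) R S K (PMs L (fun k n m x => pj e (d k n m x)) K)
      (shF L (fun k => encR L (vR e (w k) (g k))) (K + 1))
      (shF L (fun k => encR L (vR e (w' k) (g (k + 1)))) K) := by
  refine midP_shF (F := fun k => vR e (w k) (g k)) (G := fun k => vR e (w' k) (g (k + 1))) h0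
    (fun k hk n hn m hm' => lprj_pj he hm (hd k hk n hn m hm')) ?_
  intro k hk n hn m hm' l _ y hy x hx
  rw [lprR_vR he hm]
  unfold vR
  rw [hw k hk n hn m hm' y hy x hx, cv_sub]
  ring

end vec

/-! ### caps from energies -/

/-- The Hilbert–Schmidt norm bounds the cap. -/
theorem capL_of_sq {L k : ℕ} {n m : ℤ} {c : ℝ} {A : ℤ → ℤ → ℤ → ℝ}
    (h : ∑ l ∈ lbs L, sqb k n m (A l) ≤ (c * 2 ^ k) ^ 2) : CapL L k n m c A := by
  intro u v
  have h1 : ∑ x ∈ iv k n, ∑ l ∈ lbs L, ∑ y ∈ iv k m, u l x * v y * A l x y =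
      ∑ q ∈ (iv k n ×ˢ lbs L) ×ˢ iv k m, (u q.1.2 q.1.1 * v q.2) * A q.1.2 q.1.1 q.2 := by
    rw [sum_product, sum_product]
  have h2 : ∑ q ∈ (iv k n ×ˢ lbs L) ×ˢ iv k m, (u q.1.2 q.1.1 * v q.2) ^ 2 =
      (∑ x ∈ iv k n, ∑ l ∈ lbs L, u l x ^ 2) * ∑ y ∈ iv k m, v y ^ 2 := by
    rw [sum_product, sum_product, sum_mul]
    refine sum_congr rfl fun x _ => ?_
    rw [sum_mul]
    refine sum_congr rfl fun l _ => ?_
    rw [mul_sum]
    exact sum_congr rfl fun y _ => by ring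
  have h3 : ∑ q ∈ (iv k n ×ˢ lbs L) ×ˢ iv k m, A q.1.2 q.1.1 q.2 ^ 2 =
      ∑ l ∈ lbs L, sqb k n m (A l) := by
    unfold sqb
    rw [sum_product, sum_product, sum_comm]
    refine sum_congr rfl fun l _ => ?_
    rw [sum_comm]
  rw [h1]
  have h4 := sum_mul_sq_le_sq_mul_sq ((iv k n ×ˢ lbs L) ×ˢ iv k m)
    (fun q => u q.1.2 q.1.1 * v q.2) fun q => A q.1.2 q.1.1 q.2
  rw [h2, h3] at h4
  have n1 : 0 ≤ (∑ x ∈ iv k n, ∑ l ∈ lbs L, u l x ^ 2) * ∑ y ∈ iv k m, v y ^ 2 :=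
    mul_nonneg (sum_nonneg fun _ _ => sum_nonneg fun _ _ => sq_nonneg _)
      (sum_nonneg fun _ _ => sq_nonneg _)
  refine h4.trans ((mul_le_mul_of_nonneg_left h n1).trans (le_of_eq (by ring)))

theorem capR_of_sq {L k : ℕ} {n m : ℤ} {c : ℝ} {A : ℤ → ℤ → ℤ → ℝ}
    (h : ∑ l ∈ lbs L, sqb k n m (A l) ≤ (c * 2 ^ k) ^ 2) : CapR L k n m c A := by
  refine capL_of_sq (le_trans (le_of_eq ?_) h)
  exact sum_congr rfl fun l _ => (sqb_swap k n m (A l)).symm

end

end Vale.Agent.P141.H338
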