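import Vale.Agent.P141.H338.Lab1

/-!
# P141, CE, module Lab, part 2: paths of encodings

`shF L (fun k => encL L (F k))` etc. are paths on the grid `N + L`; their affected squares, own
energies and packing.
-/

namespace Vale.Agent.P141.H338

open Finset Matrix Vale.Agent.P075 Vale.Agent.P141.PL Vale.Agent.P141.PL.H588
open Vale.Agent.P141.H736 Vale.Agent.P141.H958

noncomputable section

open scoped Classical

variable {L N : ℕ} {R S : ℤ} {Q : ℕ → ℤ → ℤ → Prop}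

/-! ### agreement and paths -/

theorem agree_encL {k : ℕ} {Q : ℤ → ℤ → Prop} {F F' : ℤ → ℤ → ℤ → ℝ}
    (h : ∀ l ∈ lbs L, Agree N R S k Q (F l) (F' l)) :
    Agree (N + L) R S (k + L) Q (encL L F) (encL L F') := by
  intro n hn m hm hq y hy z hz
  rw [show N + L - (k + L) = N - k by omega] at hn hm
  rw [encL_apply, encL_apply, h _ (lb_mem L y) n hn m hm hq _ (mem_iv_add.1 hy) _
    (mem_iv_add.1 hz)]

theorem agree_encR {k : ℕ} {Q : ℤ → ℤ → Prop} {F F' : ℤ → ℤ → ℤ → ℝ}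
    (h : ∀ l ∈ lbs L, Agree N R S k Q (F l) (F' l)) :
    Agree (N + L) R S (k + L) Q (encR L F) (encR L F') := by
  intro n hn m hm hq y hy z hz
  rw [show N + L - (k + L) = N - k by omega] at hn hm
  rw [encR_apply, encR_apply, h _ (lb_mem L z) n hn m hm hq _ (mem_iv_add.1 hy) _
    (mem_iv_add.1 hz)]

theorem agree_dup {k : ℕ} {Q : ℤ → ℤ → Prop} {F F' : ℤ → ℤ → ℝ}
    (h : Agree N R S k Q F F') :
    Agree (N + L) R S (k + L) Q (dup L F) (dup L F') := by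
  intro n hn m hm hq y hy z hz
  rw [show N + L - (k + L) = N - k by omega] at hn hm
  rw [dup_apply, dup_apply, h n hn m hm hq _ (mem_iv_add.1 hy) _ (mem_iv_add.1 hz)]

theorem encL_zero : encL L (0 : ℤ → ℤ → ℤ → ℝ) = 0 := by
  funext x y
  rw [encL_apply]
  simp

theorem encR_zero : encR L (0 : ℤ → ℤ → ℤ → ℝ) = 0 := by
  funext x y
  rw [encR_apply]
  simp

theorem dup_zero : dup L (0 : ℤ → ℤ → ℝ) = 0 := rfl

/-- Shifted families below the scale `L`. -/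
theorem shF_low {G : ℕ → ℤ → ℤ → ℝ} (h0 : G 0 = 0) {k : ℕ} (hk : k < L) :
    shF L G (k + 1) = 0 ∧ shF L G k = 0 := by
  refine ⟨?_, shF_lt G hk⟩
  rcases Nat.lt_or_ge (k + 1) L with h' | h'
  · exact shF_lt G h'
  · have e : k + 1 = 0 + L := by omega
    rw [e, shF_add, h0]

theorem shF_zero {G : ℕ → ℤ → ℤ → ℝ} (h0 : G 0 = 0) : shF L G 0 = 0 := by
  unfold shF
  split_ifs
  · rw [Nat.zero_sub, h0]
  · rfl

/-- Path of a shifted family. -/
theorem path_shF {G : ℕ → ℤ → ℤ → ℝ} (h0 : G 0 = 0)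
    (h : ∀ k < N, Agree (N + L) R S (k + L) (Q k) (G (k + 1)) (G k)) :
    Path (N + L) R S (shQ L Q) (shF L G) := by
  intro k hk n hn m hm hq y hy z hz
  rcases lt_or_ge k L with hkL | hkL
  · rw [(shF_low h0 hkL).1, (shF_low h0 hkL).2]
  · obtain ⟨j, rfl⟩ := Nat.exists_eq_add_of_le' hkL
    rw [show j + L + 1 = (j + 1) + L by ring, shF_add, shF_add]
    refine h j (by omega) n hn m hm (fun hq' => hq ⟨hkL, ?_⟩) y hy z hz
    rwa [Nat.add_sub_cancel]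

theorem path_encL {F : ℕ → ℤ → ℤ → ℤ → ℝ} (h0 : F 0 = 0)
    (h : ∀ l ∈ lbs L, Path N R S Q (fun k => F k l)) :
    Path (N + L) R S (shQ L Q) (shF L fun k => encL L (F k)) :=
  path_shF (by rw [h0, encL_zero]) fun k hk => agree_encL fun l hl => h l hl k hk

theorem path_encR {F : ℕ → ℤ → ℤ → ℤ → ℝ} (h0 : F 0 = 0)
    (h : ∀ l ∈ lbs L, Path N R S Q (fun k => F k l)) :
    Path (N + L) R S (shQ L Q) (shF L fun k => encR L (F k)) :=
  path_shF (by rw [h0, encR_zero]) fun k hk => agree_encR fun l hl => h l hl k hk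

theorem path_dup {F : ℕ → ℤ → ℤ → ℝ} (h0 : F 0 = 0) (h : Path N R S Q F) :
    Path (N + L) R S (shQ L Q) (shF L fun k => dup L (F k)) :=
  path_shF (by rw [h0, dup_zero]) fun k hk => agree_dup (h k hk)

/-! ### affected squares -/

/-- A sum over the affected squares of the fine grid. -/
theorem sum_Aff_shQ (L N : ℕ) (R S : ℤ) (Q : ℕ → ℤ → ℤ → Prop) (f : ℕ × ℤ × ℤ → ℝ) :
    ∑ i ∈ Aff (N + L) R S (shQ L Q), f i = ∑ i ∈ Aff N R S Q, f (i.1 + L, i.2) := by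
  rw [sum_Aff, sum_Aff, sum_shift N L]
  · refine sum_congr rfl fun k _ => ?_
    rw [show N + L - (k + L) = N - k by omega]
    refine sum_congr rfl fun m _ => sum_congr rfl fun n _ => ?_
    unfold shQ
    rw [Nat.add_sub_cancel]
    simp only [Nat.le_add_left, true_and]
  · intro k hk
    refine sum_eq_zero fun m _ => sum_eq_zero fun n _ => ?_
    rw [if_neg]
    intro hq
    exact absurd hq.1 (by omega)

theorem own4_shF (L N : ℕ) (R S : ℤ) (Q : ℕ → ℤ → ℤ → Prop) (G : ℕ → ℤ → ℤ → ℝ) :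
    own4 (N + L) R S (shQ L Q) (shF L G) =
      4 ^ L * ∑ i ∈ Aff N R S Q, (4 : ℝ) ^ i.1 * s4 (i.1 + L) (i.1 + L) (G (i.1 + 1)) i.2.1 i.2.2 := by
  unfold own4
  rw [sum_Aff_shQ, mul_sum]
  refine sum_congr rfl fun i _ => ?_
  simp only
  rw [show i.1 + L + 1 = (i.1 + 1) + L by ring, shF_add, pow_add]
  ring

/-- The S4 energy of the affected squares, label on the left variable. -/
def own4L (L N : ℕ) (R S : ℤ) (Q : ℕ → ℤ → ℤ → Prop) (F : ℕ → ℤ → ℤ → ℤ → ℝ) : ℝ :=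
  ∑ i ∈ Aff N R S Q, (4 : ℝ) ^ i.1 * s4L L i.1 i.1 (F (i.1 + 1)) i.2.1 i.2.2

/-- The S4 energy of the affected squares, label on the right variable. -/
def own4R (L N : ℕ) (R S : ℤ) (Q : ℕ → ℤ → ℤ → Prop) (F : ℕ → ℤ → ℤ → ℤ → ℝ) : ℝ :=
  ∑ i ∈ Aff N R S Q, (4 : ℝ) ^ i.1 * s4R L i.1 i.1 (F (i.1 + 1)) i.2.1 i.2.2

theorem own4L_nonneg (L N : ℕ) (R S : ℤ) (Q : ℕ → ℤ → ℤ → Prop) (F : ℕ → ℤ → ℤ → ℤ → ℝ) :
    0 ≤ own4L L N R S Q F := sum_nonneg fun _ _ => mul_nonneg (by positivity) (s4L_nonneg ..)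

theorem own4R_nonneg (L N : ℕ) (R S : ℤ) (Q : ℕ → ℤ → ℤ → Prop) (F : ℕ → ℤ → ℤ → ℤ → ℝ) :
    0 ≤ own4R L N R S Q F := sum_nonneg fun _ _ => mul_nonneg (by positivity) (s4R_nonneg ..)

theorem own4_encL (L N : ℕ) (R S : ℤ) (Q : ℕ → ℤ → ℤ → Prop) (F : ℕ → ℤ → ℤ → ℤ → ℝ) :
    own4 (N + L) R S (shQ L Q) (shF L fun k => encL L (F k)) = 4 ^ L * own4L L N R S Q F := by
  rw [own4_shF]
  unfold own4L
  simp only [s4_encL]

theorem own4_encR (L N : ℕ) (R S : ℤ) (Q : ℕ → ℤ → ℤ → Prop) (F : ℕ → ℤ → ℤ → ℤ → ℝ) :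
    own4 (N + L) R S (shQ L Q) (shF L fun k => encR L (F k)) = 4 ^ L * own4R L N R S Q F := by
  rw [own4_shF]
  unfold own4R
  simp only [s4_encR]

theorem own4_dup (L N : ℕ) (R S : ℤ) (Q : ℕ → ℤ → ℤ → Prop) (F : ℕ → ℤ → ℤ → ℝ) :
    own4 (N + L) R S (shQ L Q) (shF L fun k => dup L (F k)) = 4 ^ L * own4 N R S Q F := by
  rw [own4_shF]
  unfold own4
  simp only [s4_dup]

/-! ### `L²` power -/

theorem pwr_shF (L N : ℕ) (R S : ℤ) (Q : ℕ → ℤ → ℤ → Prop) (G : ℕ → ℤ → ℤ → ℝ) :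
    pwr (N + L) R S (shQ L Q) (shF L G) = ∑ k ∈ range N, (∑ m ∈ iv (N - k) S,
      ∑ n ∈ iv (N - k) R, if Q k n m then sqb (k + L) n m (G (k + 1)) else 0) := by
  unfold pwr
  rw [sum_shift N L]
  · refine sum_congr rfl fun k _ => ?_
    unfold sqQ
    rw [show k + L + 1 = (k + 1) + L by ring, shF_add, show N + L - (k + L) = N - k by omega]
    refine sum_congr rfl fun m _ => sum_congr rfl fun n _ => ?_
    unfold shQ
    rw [Nat.add_sub_cancel]
    simp only [Nat.le_add_left, true_and]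
  · intro k hk
    unfold sqQ
    refine sum_eq_zero fun m _ => sum_eq_zero fun n _ => ?_
    rw [if_neg]
    intro hq
    exact absurd hq.1 (by omega)

theorem pwr_encL (L N : ℕ) (R S : ℤ) (Q : ℕ → ℤ → ℤ → Prop) (F : ℕ → ℤ → ℤ → ℤ → ℝ) :
    pwr (N + L) R S (shQ L Q) (shF L fun k => encL L (F k)) =
      4 ^ L * ∑ l ∈ lbs L, pwr N R S Q (fun k => F k l) := by
  rw [pwr_shF]
  exact pw_sum (F := F) (G := fun k => encL L (F k)) fun k n m => sqb_encL L k n m (F (k + 1))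

theorem pwr_encR (L N : ℕ) (R S : ℤ) (Q : ℕ → ℤ → ℤ → Prop) (F : ℕ → ℤ → ℤ → ℤ → ℝ) :
    pwr (N + L) R S (shQ L Q) (shF L fun k => encR L (F k)) =
      4 ^ L * ∑ l ∈ lbs L, pwr N R S Q (fun k => F k l) := by
  rw [pwr_shF]
  exact pw_sum (F := F) (G := fun k => encR L (F k)) fun k n m => sqb_encR L k n m (F (k + 1))

theorem pwr_dup (L N : ℕ) (R S : ℤ) (Q : ℕ → ℤ → ℤ → Prop) (F : ℕ → ℤ → ℤ → ℝ) :
    pwr (N + L) R S (shQ L Q) (shF L fun k => dup L (F k)) = 4 ^ L * pwr N R S Q F := by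
  rw [pwr_shF]
  unfold pwr sqQ
  rw [mul_sum]
  refine sum_congr rfl fun k _ => ?_
  rw [mul_sum]
  refine sum_congr rfl fun m _ => ?_
  rw [mul_sum]
  refine sum_congr rfl fun n _ => ?_
  split_ifs
  · exact sqb_dup L k n m (F (k + 1))
  · rw [mul_zero]

/-- Area of the events on the fine grid. -/
theorem arQ_fine (L N k : ℕ) (R S : ℤ) (Q : ℤ → ℤ → Prop) :
    arQ (N + L) R S (k + L) Q = 4 ^ L * arQ N R S k Q := by
  unfold arQ
  rw [show N + L - (k + L) = N - k by omega, pow_add]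
  ring

/-! ### packing -/

theorem packQ_shQ {cP : ℝ} (hP : 0 ≤ cP) (h : PackQ N R S Q cP) :
    PackQ (N + L) R S (shQ L Q) cP := by
  intro K hK n' m'
  rw [sum_filter, sum_Aff_shQ L N R S Q fun i => if i.1 ≤ K ∧ ix (K - i.1) i.2.1 = n' ∧
    ix (K - i.1) i.2.2 = m' then (4 : ℝ) ^ i.1 else 0]
  rcases lt_or_ge K L with hKL | hKL
  · rw [sum_eq_zero]
    · positivity
    · intro i _
      rw [if_neg]
      intro hi
      simp only at hi
      omega
  · obtain ⟨J, rfl⟩ := Nat.exists_eq_add_of_le' hKL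
    have h1 := h J (by omega) n' m'
    rw [sum_filter] at h1
    have h2 := mul_le_mul_of_nonneg_left h1 (by positivity : (0 : ℝ) ≤ 4 ^ L)
    refine (le_of_eq ?_).trans (h2.trans (le_of_eq ?_))
    · rw [mul_sum]
      refine sum_congr rfl fun i _ => ?_
      simp only
      rw [show J + L - (i.1 + L) = J - i.1 by omega]
      by_cases hi : i.1 ≤ J ∧ ix (J - i.1) i.2.1 = n' ∧ ix (J - i.1) i.2.2 = m'
      · rw [if_pos hi, if_pos ⟨by omega, hi.2⟩, pow_add]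
        ring
      · rw [if_neg hi, if_neg, mul_zero]
        rintro ⟨h3, h4⟩
        exact hi ⟨by omega, h4⟩
    · rw [pow_add]
      ring

/-! ### the data of the engine -/

theorem S4E_encL {F : ℕ → ℤ → ℤ → ℤ → ℝ} {G cP : ℝ} (hP : 0 ≤ cP) (h0 : F 0 = 0)
    (hp : ∀ l ∈ lbs L, Path N R S Q (fun k => F k l)) (ho : own4L L N R S Q F ≤ G)
    (hk : PackQ N R S Q cP) :
    S4E (N + L) R S (shQ L Q) (shF L fun k => encL L (F k)) (4 ^ L * G) cP where
  path := path_encL h0 hp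
  zero := shF_zero (by rw [h0, encL_zero])
  own := by
    rw [own4_encL]
    exact mul_le_mul_of_nonneg_left ho (by positivity)
  pack := packQ_shQ hP hk

theorem S4E_encR {F : ℕ → ℤ → ℤ → ℤ → ℝ} {G cP : ℝ} (hP : 0 ≤ cP) (h0 : F 0 = 0)
    (hp : ∀ l ∈ lbs L, Path N R S Q (fun k => F k l)) (ho : own4R L N R S Q F ≤ G)
    (hk : PackQ N R S Q cP) :
    S4E (N + L) R S (shQ L Q) (shF L fun k => encR L (F k)) (4 ^ L * G) cP where
  path := path_encR h0 hp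
  zero := shF_zero (by rw [h0, encR_zero])
  own := by
    rw [own4_encR]
    exact mul_le_mul_of_nonneg_left ho (by positivity)
  pack := packQ_shQ hP hk

theorem S4E_dup {F : ℕ → ℤ → ℤ → ℝ} {G cP : ℝ} (hP : 0 ≤ cP) (h : S4E N R S Q F G cP) :
    S4E (N + L) R S (shQ L Q) (shF L fun k => dup L (F k)) (4 ^ L * G) cP where
  path := path_dup h.zero h.path
  zero := shF_zero (by rw [h.zero, dup_zero])
  own := by
    rw [own4_dup]
    exact mul_le_mul_of_nonneg_left h.own (by positivity)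
  pack := packQ_shQ hP h.pack

theorem L2E_encL {F : ℕ → ℤ → ℤ → ℤ → ℝ} {D : ℝ} (h0 : F 0 = 0)
    (hp : ∀ l ∈ lbs L, Path N R S Q (fun k => F k l))
    (ho : ∑ l ∈ lbs L, pwr N R S Q (fun k => F k l) ≤ D) :
    L2E (N + L) R S (shQ L Q) (shF L fun k => encL L (F k)) (4 ^ L * D) where
  path := path_encL h0 hp
  zero := shF_zero (by rw [h0, encL_zero])
  own := by
    rw [pwr_encL]
    exact mul_le_mul_of_nonneg_left ho (by positivity)

theorem L2E_encR {F : ℕ → ℤ → ℤ → ℤ → ℝ} {D : ℝ} (h0 : F 0 = 0)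
    (hp : ∀ l ∈ lbs L, Path N R S Q (fun k => F k l))
    (ho : ∑ l ∈ lbs L, pwr N R S Q (fun k => F k l) ≤ D) :
    L2E (N + L) R S (shQ L Q) (shF L fun k => encR L (F k)) (4 ^ L * D) where
  path := path_encR h0 hp
  zero := shF_zero (by rw [h0, encR_zero])
  own := by
    rw [pwr_encR]
    exact mul_le_mul_of_nonneg_left ho (by positivity)

theorem L2E_dup {F : ℕ → ℤ → ℤ → ℝ} {D : ℝ} (h : L2E N R S Q F D) :
    L2E (N + L) R S (shQ L Q) (shF L fun k => dup L (F k)) (4 ^ L * D) where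
  path := path_dup h.zero h.path
  zero := shF_zero (by rw [h.zero, dup_zero])
  own := by
    rw [pwr_dup]
    exact mul_le_mul_of_nonneg_left h.own (by positivity)

/-! ### boxes, planes, caps -/

theorem bx3_fine (L N k : ℕ) (R : Pt) (c : ℤ) :
    PL.H804.bx3 (N + L) R (k + L) c = PL.H804.bx3 N R k c := by
  unfold PL.H804.bx3
  rw [show N + L - (k + L) = N - k by omega]

theorem shs_sub {R : Pt} {c : ℕ → ℤ} {s : ℕ → Finset Pt}
    (h : ∀ k ∈ Icc 1 N, s k ⊆ PL.H804.bx3 N R k (c k)) :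
    ∀ k ∈ Icc 1 (N + L), shs L s k ⊆ PL.H804.bx3 (N + L) R k (shc L c k) := by
  intro k hk
  unfold shs
  split_ifs with h1
  · obtain ⟨j, rfl⟩ : ∃ j, k = j + L := ⟨k - L, by omega⟩
    rw [Nat.add_sub_cancel, shc_add, bx3_fine]
    rw [mem_Icc] at hk
    exact h j (mem_Icc.2 (by omega))
  · exact empty_subset _

/-- Caps of a shifted family on the used boxes. -/
theorem cap_shF {G : ℕ → ℤ → ℤ → ℝ} {x : ℝ} {s : ℕ → Finset Pt} {p q : Pt → ℤ}
    (h : ∀ k ∈ Icc 1 N, ∀ m ∈ s k, PL.H804.Cap (k + L) (p m) (q m) x (G k)) :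
    ∀ k ∈ Icc 1 (N + L), ∀ m ∈ shs L s k, PL.H804.Cap k (p m) (q m) x (shF L G k) := by
  intro k hk m hm
  unfold shs at hm
  split_ifs at hm with h1
  · obtain ⟨j, rfl⟩ : ∃ j, k = j + L := ⟨k - L, by omega⟩
    rw [Nat.add_sub_cancel] at hm
    rw [mem_Icc] at hk
    rw [shF_add]
    exact h j (mem_Icc.2 (by omega)) m hm
  · exact absurd hm (notMem_empty m)

/-- The output of an engine theorem on the fine grid. -/
theorem out_fine {s : ℕ → Finset Pt} {A B C : ℕ → ℤ → ℤ → ℝ} {g : ℕ → Pt → ℝ} {b : ℝ}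
    (h : ∑ k ∈ Icc 1 (N + L), (2 ^ k : ℝ)⁻¹ * ∑ m ∈ shs L s k,
      |tri k m (shF L A k) (shF L B k) (shF L C k)| ≤ 4 ^ L * b)
    (e : ∀ k ∈ Icc 1 N, ∀ m ∈ s k, tri (k + L) m (A k) (B k) (C k) = 8 ^ L * g k m) :
    ∑ k ∈ Icc 1 N, (2 ^ k : ℝ)⁻¹ * ∑ m ∈ s k, |g k m| ≤ b := by
  refine ml_out (L := L) (f := fun k m => tri (k + L) m (A k) (B k) (C k)) ?_ e
  refine (le_of_eq ?_).trans h
  rw [sum_Icc_shift N L]
  · refine sum_congr rfl fun k hk => ?_
    rw [shF_add, shF_add, shF_add, shs_add s (mem_Icc.1 hk).1]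
  · intro k hk
    unfold shs
    rw [if_neg (by omega), sum_empty, mul_zero]

end

end Vale.Agent.P141.H338
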