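import Vale.Agent.P141.H338.CapN

/-!
# P141, line (A), [T5] (hB): the node cap with one bound for all columns, and its numbers

`capM` : on one cube of scale `k` on which the uniform slot `F (k + 1)` does not vanish, every
column of `u` has mass `≤ R` and the local mass of `u` is `≤ m`: then the sum over `x₀` of the
square traces of the weighted family is at most `2 ^ k l⁻¹ endV .. m 0 R J`.  Nothing is needed on
the cubes where `F (k + 1)` vanishes.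

`numM` : the END value for `l = t ^ (2 - e') √s r ^ (69 / 200)`,
`R ≤ CR t ^ (a - 2 - ε) √s r ^ (-(1 - ε))`, for every `s > 0`.
`col_num` : the two bounds of a class (`R ≤ L t ^ (a - 2 - ε) √s`, and, when `2 ≤ r`,
`R ≤ L t ^ (-ε) r ^ ε √s / r`) in the one form used by `numM`.
-/

namespace Vale.Agent.P141.H338

open Finset Matrix Vale.Agent.P075 Vale.Agent.P141.PL
open Vale.Agent.P141.PL.H315 (avg avg_nonneg)
open Vale.Agent.P141.H550 (avg_comm avg_congr avg_mono avg_mul_left avg_mul_right)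
open Vale.Agent.P141.H48 (BSl BUn US)
open Vale.Agent.P141.H703 (u4T u4T_nonneg)
open Vale.Agent.P141.H971 (gm gm_quad)
open Vale.Agent.P141.H103 (QW QK)
open Vale.Agent.P141.H588G (S2)
open Vale.Agent.P141.H677 (GT KT GT_form tr_T)

noncomputable section

variable {κ : Type*} [Fintype κ] [DecidableEq κ]

omit [DecidableEq κ] in
theorem avg_zero_iv (k : ℕ) (m : ℤ) : (avg (iv k m) fun _ => (0 : ℝ)) = 0 := by
  simp [H315.avg]

/-- **The node cap, one bound for all columns.** -/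
theorem capM {n : ℕ} {d e cP Λ l R m : ℝ} {F : ℕ → Pt → ℝ} (hF : US n d e cP F)
    (hd : 0 < d) (he : 1 ≤ e) (hl : 0 < l) (hΛ : 0 < Λ) (hR : 0 ≤ R) (hm0 : 0 ≤ m)
    {k : ℕ} (hk : k < n) (q : Pt) (u : ℤ → ℤ → κ → ℝ)
    (hu : ∀ x ∈ iv k q.2.1, ∀ y ∈ iv k q.2.2, u x y ⬝ᵥ u x y ≤ 1)
    (hcol : (∃ z ∈ iv k q.1, ∃ x ∈ iv k q.2.1, ∃ y ∈ iv k q.2.2, F (k + 1) (z, x, y) ≠ 0) →
      ∀ y ∈ iv k q.2.2, (avg (iv k q.2.1) fun x => u x y ⬝ᵥ u x y) ≤ R)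
    (hm : (∃ z ∈ iv k q.1, ∃ x ∈ iv k q.2.1, ∃ y ∈ iv k q.2.2, F (k + 1) (z, x, y) ≠ 0) →
      (avg (iv k q.2.2) fun y => avg (iv k q.2.1) fun x => u x y ⬝ᵥ u x y) ≤ m)
    (Fk : Pt → ℝ) (χ : ℤ → ℝ) (hχ : ∀ z ∈ iv k q.1, |χ z| ≤ 1)
    (hFk : ∀ z ∈ iv k q.1, ∀ x ∈ iv k q.2.1, ∀ y ∈ iv k q.2.2,
      Fk (z, x, y) = χ z * F (k + 1) (z, x, y)) (J : ℕ) :
    ∑ z ∈ iv k q.1, S2 (QK (fun x y => Fk (z, x, y) • u x y) (KT l u) k k q.2.1 q.2.2) ≤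
      2 ^ k * (l⁻¹ * endV d e Λ l m 0 R J) := by
  by_cases hz : ∃ z ∈ iv k q.1, ∃ x ∈ iv k q.2.1, ∃ y ∈ iv k q.2.2, F (k + 1) (z, x, y) ≠ 0
  · have hc := hcol hz
    have e1 : ∀ y, clD (fun _ _ => False) u k q.2.1 y =
        avg (iv k q.2.1) fun x => u x y ⬝ᵥ u x y := fun y =>
      avg_congr fun x _ => if_neg not_false
    refine capB_T hF hd he hl hΛ hR hk q u (fun _ _ => False) (fun x hx y hy _ => hu x hx y hy)
      ?_ ?_ Fk χ hχ (fun z hz x hx y hy => ?_) J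
    · refine le_trans (avg_mono (g := fun _ => (0 : ℝ)) fun y hy => ?_)
        (le_of_eq (avg_zero_iv k q.2.2))
      refine le_of_eq (if_neg (not_lt.2 ?_))
      rw [e1]
      exact hc y hy
    · refine le_trans (le_of_eq ?_) (hm hz)
      exact avg_congr fun y _ => e1 y
    · rw [if_neg not_false]
      exact hFk z hz x hx y hy
  · push Not at hz
    have h0 : ∀ z ∈ iv k q.1, ∀ x ∈ iv k q.2.1, ∀ y ∈ iv k q.2.2,
        Fk (z, x, y) • u x y = 0 := fun z hz1 x hx y hy => by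
      rw [hFk z hz1 x hx y hy, hz z hz1 x hx y hy, mul_zero, zero_smul]
    refine capB_us hF hd he hΛ hR (tr_T hl n u) hk q (fun _ _ => 0) (fun x _ y _ => ?_)
      (fun _ => False) (fun y _ _ => ?_) ?_ ?_ (fun x _ v => ?_)
      (fun z x y => Fk (z, x, y) • u x y) χ hχ (fun z hz1 x hx y hy => ?_) J
    · simp
    · simpa [avg_zero_iv] using hR
    · simp [avg_zero_iv]
    · simpa [avg_zero_iv] using hm0
    · rw [gm_quad, GT_form, ← avg_iv']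
      exact avg_mono fun y _ => by simpa using sq_nonneg _
    · rw [smul_zero]
      exact h0 z hz1 x hx y hy

/-- The two bounds of a class in one form (`r = 1` : the first bound only). -/
theorem col_num {L a ε t s r R : ℝ} (ha : a ≤ 2) (hL : 0 ≤ L) (ht : 0 < t) (ht1 : t ≤ 1)
    (hr : 1 ≤ r) (h1 : R ≤ L * (t ^ (a - 2 - ε) * √s))
    (h2 : r = 1 ∨ R ≤ L * (t ^ (-ε) * r ^ ε * (√s / r))) :
    R ≤ L * (t ^ (-(2 - a + ε)) * √s * r ^ (-(1 - ε))) := by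
  have hr0 : 0 < r := by linarith
  rcases h2 with rfl | h2
  · rw [Real.one_rpow, mul_one, show -(2 - a + ε) = a - 2 - ε by ring]
    exact h1
  · refine h2.trans (mul_le_mul_of_nonneg_left ?_ hL)
    have e1 : r ^ ε * (√s / r) = √s * r ^ (-(1 - ε)) := by
      rw [show -(1 - ε) = ε - 1 by ring, Real.rpow_sub_one hr0.ne']
      ring
    rw [mul_assoc, e1, mul_assoc]
    refine mul_le_mul_of_nonneg_right ?_ (by positivity)
    exact Real.rpow_le_rpow_of_exponent_ge ht ht1 (by linarith)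

/-- **The numbers**: `l = t ^ (2 - e') √s r ^ (69 / 200)`, one form of the column bound. -/
theorem numM {a ε e' c2 c Kt e Cm CR dl : ℝ} (ha : a ≤ 1) (hε1 : ε ≤ a / 100)
    (he' : e' ≤ a / 10) (hc2 : 0 < c2) (hc2' : c2 ≤ a / 10) (hKt : 0 < Kt)
    (he : 1 ≤ e) (hCm : 0 ≤ Cm) (hCR : 0 ≤ CR) (hc : c ≤ c2 / 100) (hdl : dl ≤ c2 / 100) :
    ∃ C : ℝ, 0 ≤ C ∧ ∀ t s r : ℝ, 0 < t → t ≤ 1 → 0 < s → 1 ≤ r → ∃ J : ℕ, ∀ m R : ℝ,
      0 ≤ m → 0 ≤ R → m ≤ Cm * (t ^ (-dl) * s) →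
      R ≤ CR * (t ^ (-(2 - a + ε)) * √s * r ^ (-(1 - ε))) →
      endV (Kt * t ^ (1 - c)) e (t ^ (2 - e' - c2) * √s * r ^ (71 / 200 : ℝ))
        (t ^ (2 - e') * √s * r ^ (69 / 200 : ℝ)) m 0 R J ≤
        C * (t ^ (2 + c2 / 4) * s ^ (3 / 2 : ℝ) * r ^ (-(1 / 1000 : ℝ))) := by
  have hδ : 0 < min (c2 / 100) (1 / 1000) := lt_min (by linarith) (by norm_num)
  have hδ1 : min (c2 / 100) (1 / 1000) ≤ c2 / 100 := min_le_left _ _
  have hδ2 : min (c2 / 100) (1 / 1000) ≤ 1 / 1000 := min_le_right _ _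
  obtain ⟨C, hC, H⟩ := endV_le (c := c) (Kt := Kt) (e := e) (Cm := Cm) (Ch := 0) (CR := CR)
    (a0 := 2 - e' - c2) (a1 := 71 / 200) (b0 := 2 - e') (b1 := 69 / 200) (dl := dl) (η := 1)
    (τ := 1) (ρ := 2 - a + ε) (k := 1 - ε) (μ := c2 / 2 - c2 / 100) (ν := 1 / 1000)
    (ε := min (c2 / 100) (1 / 1000)) (γ := c2 / 4) (δ := 1 / 1000) hKt he hCm le_rfl hCR hδ
    (by linarith) (by linarith) (by norm_num) (by norm_num) (by linarith) (by norm_num)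
    (by linarith) (by norm_num) (by linarith) (by linarith) (by linarith) (by linarith)
    (by linarith) (by linarith)
  refine ⟨C, hC, fun t s r ht ht1 hs hr => ?_⟩
  obtain ⟨J, HJ⟩ := H t s r ht ht1 hs hr
  exact ⟨J, fun m R hm hR h1 h2 => HJ m 0 R hm le_rfl hR h1 (by simp) h2⟩

/-- **The numbers in the letters of `H305.TopM`**: `l = t ^ (2 - e₀) √s r ^ e₀`,
`Λ = t ^ (2 - 2 e₀) √s r ^ (2 e₀)`, local mass `m ≤ Cm t ^ (-d) s`, columns
`R ≤ CR t ^ (a - 2 - d) √s r⁻¹`; `c` and `d` are small against `e₀`, and `e₀ ≤ a / 10`. -/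
theorem numT {a e₀ c d Kt e Cm CR : ℝ} (ha : a ≤ 1) (he0 : 0 < e₀) (he0' : e₀ ≤ a / 10)
    (hKt : 0 < Kt) (he : 1 ≤ e) (hCm : 0 ≤ Cm) (hCR : 0 ≤ CR) (hc : c ≤ e₀ / 100)
    (hd : d ≤ e₀ / 100) :
    ∃ C : ℝ, 0 ≤ C ∧ ∀ t s r : ℝ, 0 < t → t ≤ 1 → 0 < s → 1 ≤ r → ∃ J : ℕ, ∀ m R : ℝ,
      0 ≤ m → 0 ≤ R → m ≤ Cm * (t ^ (-d) * s) →
      R ≤ CR * (t ^ (a - 2 - d) * √s) * r⁻¹ →
      endV (Kt * t ^ (1 - c)) e (t ^ (2 - 2 * e₀) * √s * r ^ (2 * e₀))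
        (t ^ (2 - e₀) * √s * r ^ e₀) m 0 R J ≤
        C * (t ^ (2 + e₀ / 4) * s ^ (3 / 2 : ℝ) * r ^ (-(e₀ / 4))) := by
  have hδ : 0 < e₀ / 100 := by linarith
  obtain ⟨C, hC, H⟩ := endV_le (c := c) (Kt := Kt) (e := e) (Cm := Cm) (Ch := 0) (CR := CR)
    (a0 := 2 - 2 * e₀) (a1 := 2 * e₀) (b0 := 2 - e₀) (b1 := e₀) (dl := d) (η := 1)
    (τ := 1) (ρ := 2 - a + d) (k := 1) (μ := e₀ / 2 - e₀ / 100) (ν := e₀ / 2)
    (ε := e₀ / 100) (γ := e₀ / 4) (δ := e₀ / 4) hKt he hCm le_rfl hCR hδ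
    (by linarith) (by linarith) (by linarith) (by linarith) (by linarith) (by linarith)
    (by linarith) (by linarith) (by linarith) (by linarith) (by linarith) (by linarith)
    (by linarith) (by linarith)
  refine ⟨C, hC, fun t s r ht ht1 hs hr => ?_⟩
  obtain ⟨J, HJ⟩ := H t s r ht ht1 hs hr
  refine ⟨J, fun m R hm hR h1 h2 => HJ m 0 R hm le_rfl hR h1 (by simp) (h2.trans (le_of_eq ?_))⟩
  rw [show -(2 - a + d) = a - 2 - d by ring, Real.rpow_neg_one]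
  ring

end

end Vale.Agent.P141.H338
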