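import Vale.Agent.P141.H338.CapB

/-!
# P141, line (A), [T5] (hB): the numbers of the node cap

`mo t s r a b c = t ^ a s ^ b r ^ c`.  `endV_le`: with `d = Kt t ^ (1 - c)`, `Λ = t ^ a₀ √s r ^ a₁`,
`l = t ^ b₀ √s r ^ b₁`, masses `m ≤ t ^ (-dl) s`, `mh ≤ t ^ η s r ^ (-τ)`, columns
`R ≤ t ^ (-ρ) √s r ^ (-k)`, the END value is at most `C t ^ (2 + γ) s ^ (3 / 2) r ^ (-δ)` as soon as
linear inequalities between the exponents hold.
-/

namespace Vale.Agent.P141.H338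

open Vale.Agent.P141.H703 (u4T u4T_nonneg)

noncomputable section

/-- a monomial -/
def mo (t s r a b c : ℝ) : ℝ := t ^ a * s ^ b * r ^ c

variable {t s r : ℝ}

theorem mo_pos (ht : 0 < t) (hs : 0 < s) (hr : 0 < r) (a b c : ℝ) : 0 < mo t s r a b c := by
  unfold mo; positivity

theorem mo_mul (ht : 0 < t) (hs : 0 < s) (hr : 0 < r) (a b c a' b' c' : ℝ) :
    mo t s r a b c * mo t s r a' b' c' = mo t s r (a + a') (b + b') (c + c') := by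
  unfold mo
  rw [Real.rpow_add ht, Real.rpow_add hs, Real.rpow_add hr]
  ring

theorem mo_rpow (ht : 0 < t) (hs : 0 < s) (hr : 0 < r) (a b c p : ℝ) :
    mo t s r a b c ^ p = mo t s r (a * p) (b * p) (c * p) := by
  unfold mo
  rw [Real.mul_rpow (by positivity) (by positivity), Real.mul_rpow (by positivity) (by positivity),
    ← Real.rpow_mul ht.le, ← Real.rpow_mul hs.le, ← Real.rpow_mul hr.le]

theorem mo_sqrt (ht : 0 < t) (hs : 0 < s) (hr : 0 < r) (a b c : ℝ) :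
    √(mo t s r a b c) = mo t s r (a / 2) (b / 2) (c / 2) := by
  rw [Real.sqrt_eq_rpow, mo_rpow ht hs hr]
  congr 1 <;> ring

theorem mo_mono (ht : 0 < t) (ht1 : t ≤ 1) (hs : 0 < s) (hr : 1 ≤ r) {a b c a' b' c' : ℝ}
    (ha : a' ≤ a) (hb : b = b') (hc : c ≤ c') : mo t s r a b c ≤ mo t s r a' b' c' := by
  subst hb
  have hr0 : 0 < r := by linarith
  unfold mo
  have h1 : t ^ a ≤ t ^ a' := Real.rpow_le_rpow_of_exponent_ge ht ht1 ha
  have h2 : r ^ c ≤ r ^ c' := Real.rpow_le_rpow_of_exponent_le hr hc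
  gcongr

/-- the number of bands -/
theorem exists_J {ε : ℝ} (hε : 0 < ε) : ∃ C : ℝ, 0 ≤ C ∧ ∀ t r : ℝ, 0 < t → t ≤ 1 → 1 ≤ r →
    ∃ J : ℕ, (1 / 2 : ℝ) ^ J ≤ t * r⁻¹ ∧ (J : ℝ) ^ 2 ≤ C * (t ^ (-ε) * r ^ ε) := by
  refine ⟨(2 / (ε * Real.log 2) + 1) ^ 2, sq_nonneg _, fun t r ht ht1 hr => ?_⟩
  have hr0 : 0 < r := by linarith
  set x : ℝ := r / t with hx
  have hx1 : 1 ≤ x := by rw [hx, le_div_iff₀ ht]; linarith
  have hx0 : 0 < x := by linarith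
  have hl2 : 0 < Real.log 2 := Real.log_pos one_lt_two
  have hlx : 0 ≤ Real.log x / Real.log 2 := div_nonneg (Real.log_nonneg hx1) hl2.le
  refine ⟨⌈Real.log x / Real.log 2⌉₊, ?_, ?_⟩
  · have h1 : Real.log x / Real.log 2 ≤ (⌈Real.log x / Real.log 2⌉₊ : ℝ) := Nat.le_ceil _
    have h2 : x ≤ 2 ^ ⌈Real.log x / Real.log 2⌉₊ := by
      rw [div_le_iff₀ hl2, ← Real.log_pow] at h1
      exact (Real.log_le_log_iff hx0 (by positivity)).1 h1
    have h3 : t * r⁻¹ = x⁻¹ := by rw [hx]; field_simp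
    rw [h3, one_div, inv_pow]
    exact inv_anti₀ hx0 h2
  · have h1 : (⌈Real.log x / Real.log 2⌉₊ : ℝ) ≤ Real.log x / Real.log 2 + 1 :=
      (Nat.ceil_lt_add_one hlx).le
    have h2 : Real.log x ≤ x ^ (ε / 2) / (ε / 2) := Real.log_le_rpow_div hx0.le (half_pos hε)
    have h3 : 1 ≤ x ^ (ε / 2) := Real.one_le_rpow hx1 (half_pos hε).le
    have h4 : Real.log x / Real.log 2 + 1 ≤ (2 / (ε * Real.log 2) + 1) * x ^ (ε / 2) := by
      have h5 : Real.log x / Real.log 2 ≤ 2 / (ε * Real.log 2) * x ^ (ε / 2) := by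
        rw [div_le_iff₀ hl2]
        refine h2.trans (le_of_eq ?_)
        field_simp
      linarith
    have h6 : (⌈Real.log x / Real.log 2⌉₊ : ℝ) ^ 2 ≤
        ((2 / (ε * Real.log 2) + 1) * x ^ (ε / 2)) ^ 2 :=
      pow_le_pow_left₀ (Nat.cast_nonneg _) (h1.trans h4) 2
    refine h6.trans (le_of_eq ?_)
    rw [mul_pow, ← Real.rpow_natCast (x ^ (ε / 2)) 2, ← Real.rpow_mul hx0.le, hx,
      show ε / 2 * ((2 : ℕ) : ℝ) = ε by push_cast; ring, Real.div_rpow hr0.le ht.le,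
      Real.rpow_neg ht.le]
    ring

/-- a power of a bounded monomial -/
theorem rpow_le_mo (ht : 0 < t) (hs : 0 < s) (hr : 0 < r) {X C a b c p : ℝ} (hX : 0 ≤ X)
    (hC : 0 ≤ C) (hp : 0 ≤ p) (h : X ≤ C * mo t s r a b c) :
    X ^ p ≤ C ^ p * mo t s r (a * p) (b * p) (c * p) := by
  rw [← mo_rpow ht hs hr, ← Real.mul_rpow hC (mo_pos ht hs hr a b c).le]
  exact Real.rpow_le_rpow hX h hp

/-- **The END value in numbers.** -/
theorem endV_le {c Kt e Cm Ch CR a0 a1 b0 b1 dl η τ ρ k μ ν ε γ δ : ℝ} (hKt : 0 < Kt)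
    (he : 1 ≤ e) (hCm : 0 ≤ Cm) (hCh : 0 ≤ Ch) (hCR : 0 ≤ CR) (hε : 0 < ε)
    (hμ1 : μ ≤ (b0 - a0) / 2 - dl) (hμ2 : μ ≤ η) (hν1 : ν ≤ (a1 - b1) / 2) (hν2 : ν ≤ τ)
    (h1 : γ ≤ 3 / 2 * μ - 2 * c) (h1' : δ ≤ 3 / 2 * ν)
    (h2 : γ ≤ 1 - 2 * c - 3 / 2 * dl) (h2' : δ ≤ 1)
    (h3 : 2 + γ ≤ 5 / 3 * (1 - c) + 7 / 12 * a0 - 5 / 12 * ρ - dl - ε)
    (h3' : δ ≤ 5 / 12 * k - 7 / 12 * a1 - ε)
    (h4 : 2 + γ ≤ 8 / 5 * (1 - c) + 3 / 5 * a0 - 2 / 5 * ρ - dl - ε)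
    (h4' : δ ≤ 2 / 5 * k - 3 / 5 * a1 - ε)
    (h5 : 2 + γ ≤ 4 / 3 * (1 - c) + 2 / 3 * a0 - 1 / 3 * ρ - dl - ε)
    (h5' : δ ≤ 1 / 3 * k - 2 / 3 * a1 - ε) :
    ∃ C : ℝ, 0 ≤ C ∧ ∀ t s r : ℝ, 0 < t → t ≤ 1 → 0 < s → 1 ≤ r → ∃ J : ℕ, ∀ m mh R : ℝ,
      0 ≤ m → 0 ≤ mh → 0 ≤ R → m ≤ Cm * (t ^ (-dl) * s) → mh ≤ Ch * (t ^ η * s * r ^ (-τ)) →
      R ≤ CR * (t ^ (-ρ) * √s * r ^ (-k)) →
      endV (Kt * t ^ (1 - c)) e (t ^ a0 * √s * r ^ a1) (t ^ b0 * √s * r ^ b1) m mh R J ≤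
        C * (t ^ (2 + γ) * s ^ (3 / 2 : ℝ) * r ^ (-δ)) := by
  obtain ⟨CJ, hCJ, HJ⟩ := exists_J hε
  set E1 : ℝ := (Cm + Ch) * √(Cm + Ch) with hE1
  set E2 : ℝ := Cm * √Cm with hE2
  set E3 : ℝ := Kt ^ (5 / 3 : ℝ) * CR ^ (5 / 12 : ℝ) + Kt ^ (8 / 5 : ℝ) * CR ^ (2 / 5 : ℝ) +
    Kt ^ (4 / 3 : ℝ) * CR ^ (1 / 3 : ℝ) with hE3
  have hE1' : 0 ≤ E1 := by positivity
  have hE2' : 0 ≤ E2 := by positivity
  have hE3' : 0 ≤ E3 := by positivity
  refine ⟨5760000 * (Kt ^ 2 * e) * E1 + 46080000 * (Kt ^ 2 * e) * E2 +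
    16384 * CJ * e ^ 3 * (Cm * E3), by positivity, ?_⟩
  intro t s r ht ht1 hs hr
  obtain ⟨J, hJ1, hJ2⟩ := HJ t r ht ht1 hr
  refine ⟨J, ?_⟩
  intro m mh R hm hmh hR hm' hmh' hR'
  have hr0 : 0 < r := by linarith
  have ml := mo_pos ht hs hr0
  have e1 : t ^ (-dl) * s = mo t s r (-dl) 1 0 := by unfold mo; simp
  have e2 : t ^ η * s * r ^ (-τ) = mo t s r η 1 (-τ) := by unfold mo; simp
  have e3 : t ^ (-ρ) * √s * r ^ (-k) = mo t s r (-ρ) (1 / 2) (-k) := by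
    unfold mo; rw [Real.sqrt_eq_rpow]
  have e4 : ∀ a b : ℝ, t ^ a * √s * r ^ b = mo t s r a (1 / 2) b := fun a b => by
    unfold mo; rw [Real.sqrt_eq_rpow]
  have e5 : t ^ (1 - c) = mo t s r (1 - c) 0 0 := by unfold mo; simp
  rw [e1] at hm'
  rw [e2] at hmh'
  rw [e3] at hR'
  rw [e4, e4, e5]
  have tgt : t ^ (2 + γ) * s ^ (3 / 2 : ℝ) * r ^ (-δ) = mo t s r (2 + γ) (3 / 2) (-δ) := rfl
  rw [tgt]
  set T := mo t s r (2 + γ) (3 / 2) (-δ) with hT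
  have hT0 : 0 < T := ml _ _ _
  have hd2 : (Kt * mo t s r (1 - c) 0 0) ^ 2 = Kt ^ 2 * mo t s r (2 - 2 * c) 0 0 := by
    rw [mul_pow, sq (mo t s r (1 - c) 0 0), mo_mul ht hs hr0]
    congr 1
    congr 1 <;> ring
  have hq : √(mo t s r b0 (1 / 2) b1 / mo t s r a0 (1 / 2) a1) =
      mo t s r ((b0 - a0) / 2) 0 ((b1 - a1) / 2) := by
    have h6 : mo t s r b0 (1 / 2) b1 / mo t s r a0 (1 / 2) a1 =
        mo t s r (b0 - a0) 0 (b1 - a1) := by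
      rw [div_eq_iff (ml _ _ _).ne', mo_mul ht hs hr0]
      congr 1 <;> ring
    rw [h6, mo_sqrt ht hs hr0]
    congr 1
    ring
  -- the first term
  have X1 : √(mo t s r b0 (1 / 2) b1 / mo t s r a0 (1 / 2) a1) * m + mh ≤
      (Cm + Ch) * mo t s r μ 1 (-ν) := by
    rw [hq]
    have g1 : mo t s r ((b0 - a0) / 2) 0 ((b1 - a1) / 2) * m ≤ Cm * mo t s r μ 1 (-ν) := by
      calc _ ≤ mo t s r ((b0 - a0) / 2) 0 ((b1 - a1) / 2) * (Cm * mo t s r (-dl) 1 0) :=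
            mul_le_mul_of_nonneg_left hm' (ml _ _ _).le
        _ = Cm * mo t s r ((b0 - a0) / 2 + -dl) (0 + 1) ((b1 - a1) / 2 + 0) := by
            rw [← mo_mul ht hs hr0]; ring
        _ ≤ _ := mul_le_mul_of_nonneg_left
            (mo_mono ht ht1 hs hr (by linarith) (by norm_num) (by linarith)) hCm
    have g2 : mh ≤ Ch * mo t s r μ 1 (-ν) :=
      hmh'.trans (mul_le_mul_of_nonneg_left
        (mo_mono ht ht1 hs hr hμ2 rfl (by linarith)) hCh)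
    linarith
  have X0 : 0 ≤ √(mo t s r b0 (1 / 2) b1 / mo t s r a0 (1 / 2) a1) * m + mh := by positivity
  set X := √(mo t s r b0 (1 / 2) b1 / mo t s r a0 (1 / 2) a1) * m + mh with hXd
  have X2 : X * √X ≤ E1 * mo t s r (3 / 2 * μ) (3 / 2) (-(3 / 2 * ν)) := by
    have g1 : √X ≤ √(Cm + Ch) * mo t s r (μ / 2) (1 / 2) (-ν / 2) := by
      rw [← mo_sqrt ht hs hr0, ← Real.sqrt_mul (by positivity)]
      exact Real.sqrt_le_sqrt X1
    calc X * √X ≤ ((Cm + Ch) * mo t s r μ 1 (-ν)) *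
          (√(Cm + Ch) * mo t s r (μ / 2) (1 / 2) (-ν / 2)) :=
          mul_le_mul X1 g1 (Real.sqrt_nonneg _) (mul_nonneg (by positivity) (ml _ _ _).le)
      _ = E1 * (mo t s r μ 1 (-ν) * mo t s r (μ / 2) (1 / 2) (-ν / 2)) := by rw [hE1]; ring
      _ = _ := by
          rw [mo_mul ht hs hr0]
          congr 1
          congr 1 <;> ring
  have T1 : 5760000 * ((Kt * mo t s r (1 - c) 0 0) ^ 2 * e) * (X * √X) ≤
      5760000 * (Kt ^ 2 * e) * E1 * T := by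
    rw [hd2]
    calc _ ≤ 5760000 * (Kt ^ 2 * mo t s r (2 - 2 * c) 0 0 * e) *
          (E1 * mo t s r (3 / 2 * μ) (3 / 2) (-(3 / 2 * ν))) :=
          mul_le_mul_of_nonneg_left X2 (by have := ml (2 - 2 * c) 0 0; positivity)
      _ = 5760000 * (Kt ^ 2 * e) * E1 *
          mo t s r (2 - 2 * c + 3 / 2 * μ) (0 + 3 / 2) (0 + -(3 / 2 * ν)) := by
          rw [← mo_mul ht hs hr0]; ring
      _ ≤ _ := mul_le_mul_of_nonneg_left
          (mo_mono ht ht1 hs hr (by linarith) (by norm_num) (by linarith)) (by positivity)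
  -- the second term
  have Y2 : m * √m ≤ E2 * mo t s r (-(3 / 2 * dl)) (3 / 2) 0 := by
    have g1 : √m ≤ √Cm * mo t s r (-dl / 2) (1 / 2) (0 / 2) := by
      rw [← mo_sqrt ht hs hr0, ← Real.sqrt_mul hCm]
      exact Real.sqrt_le_sqrt hm'
    calc m * √m ≤ (Cm * mo t s r (-dl) 1 0) * (√Cm * mo t s r (-dl / 2) (1 / 2) (0 / 2)) :=
          mul_le_mul hm' g1 (Real.sqrt_nonneg _) (mul_nonneg hCm (ml _ _ _).le)
      _ = E2 * (mo t s r (-dl) 1 0 * mo t s r (-dl / 2) (1 / 2) (0 / 2)) := by rw [hE2]; ring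
      _ = _ := by
          rw [mo_mul ht hs hr0]
          congr 1
          congr 1 <;> ring
  have e6 : t * r⁻¹ = mo t s r 1 0 (-1) := by
    unfold mo
    rw [Real.rpow_one, Real.rpow_zero, mul_one, Real.rpow_neg_one]
  have T2 : 46080000 * ((Kt * mo t s r (1 - c) 0 0) ^ 2 * e) * ((1 / 2) ^ J * (m * √m)) ≤
      46080000 * (Kt ^ 2 * e) * E2 * T := by
    rw [hd2]
    calc _ ≤ 46080000 * (Kt ^ 2 * mo t s r (2 - 2 * c) 0 0 * e) *
          (mo t s r 1 0 (-1) * (E2 * mo t s r (-(3 / 2 * dl)) (3 / 2) 0)) := by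
          refine mul_le_mul_of_nonneg_left ?_ (by have := ml (2 - 2 * c) 0 0; positivity)
          exact mul_le_mul (hJ1.trans (le_of_eq e6)) Y2 (by positivity) (ml _ _ _).le
      _ = 46080000 * (Kt ^ 2 * e) * E2 *
          mo t s r (2 - 2 * c + (1 + -(3 / 2 * dl))) (0 + (0 + 3 / 2)) (0 + (-1 + 0)) := by
          rw [← mo_mul ht hs hr0, ← mo_mul ht hs hr0]; ring
      _ ≤ _ := mul_le_mul_of_nonneg_left
          (mo_mono ht ht1 hs hr (by linarith) (by norm_num) (by linarith)) (by positivity)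
  -- the third term
  have e7 : t ^ (-ε) * r ^ ε = mo t s r (-ε) 0 ε := by unfold mo; simp
  have Z0 : ∀ p q w : ℝ, 0 ≤ p → 0 ≤ q → 0 ≤ w →
      (Kt * mo t s r (1 - c) 0 0) ^ p * (mo t s r a0 (1 / 2) a1 ^ q * R ^ w) ≤
        Kt ^ p * CR ^ w * mo t s r ((1 - c) * p + (a0 * q + -ρ * w)) (1 / 2 * q + 1 / 2 * w)
          (a1 * q + -k * w) := by
    intro p q w hp hq' hw
    rw [Real.mul_rpow hKt.le (ml _ _ _).le, mo_rpow ht hs hr0, mo_rpow ht hs hr0]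
    have g1 := rpow_le_mo ht hs hr0 hR hCR hw hR'
    calc _ ≤ Kt ^ p * mo t s r ((1 - c) * p) (0 * p) (0 * p) *
          (mo t s r (a0 * q) (1 / 2 * q) (a1 * q) *
            (CR ^ w * mo t s r (-ρ * w) (1 / 2 * w) (-k * w))) := by
          have := ml ((1 - c) * p) (0 * p) (0 * p)
          have := ml (a0 * q) (1 / 2 * q) (a1 * q)
          gcongr
      _ = Kt ^ p * CR ^ w * (mo t s r ((1 - c) * p) (0 * p) (0 * p) *
          (mo t s r (a0 * q) (1 / 2 * q) (a1 * q) *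
            mo t s r (-ρ * w) (1 / 2 * w) (-k * w))) := by ring
      _ = _ := by
          rw [mo_mul ht hs hr0, mo_mul ht hs hr0]
          congr 1
          congr 1 <;> ring
  have Z1 : ∀ p q w : ℝ, 0 ≤ p → 0 ≤ q → 0 ≤ w → q + w = 1 →
      2 + γ ≤ p * (1 - c) + q * a0 - w * ρ - dl - ε → δ ≤ w * k - q * a1 - ε →
      mo t s r (-ε) 0 ε * (mo t s r (-dl) 1 0 *
        ((Kt * mo t s r (1 - c) 0 0) ^ p * (mo t s r a0 (1 / 2) a1 ^ q * R ^ w))) ≤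
      Kt ^ p * CR ^ w * T := by
    intro p q w hp hq' hw hqw g1 g2
    have g3 := Z0 p q w hp hq' hw
    calc _ ≤ mo t s r (-ε) 0 ε * (mo t s r (-dl) 1 0 * (Kt ^ p * CR ^ w *
          mo t s r ((1 - c) * p + (a0 * q + -ρ * w)) (1 / 2 * q + 1 / 2 * w)
          (a1 * q + -k * w))) := by
          have := ml (-ε) 0 ε
          have := ml (-dl) 1 0
          gcongr
      _ = Kt ^ p * CR ^ w * (mo t s r (-ε) 0 ε * (mo t s r (-dl) 1 0 *
          mo t s r ((1 - c) * p + (a0 * q + -ρ * w)) (1 / 2 * q + 1 / 2 * w)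
          (a1 * q + -k * w))) := by ring
      _ ≤ _ := by
          rw [mo_mul ht hs hr0, mo_mul ht hs hr0]
          refine mul_le_mul_of_nonneg_left (mo_mono ht ht1 hs hr (by linarith) ?_ (by linarith))
            (by positivity)
          linarith
  have T3 : 16384 * (J : ℝ) ^ 2 * e ^ 3 *
      (m * u4T (Kt * mo t s r (1 - c) 0 0) (mo t s r a0 (1 / 2) a1) R) ≤
      16384 * CJ * e ^ 3 * (Cm * E3) * T := by
    have hu : 0 ≤ u4T (Kt * mo t s r (1 - c) 0 0) (mo t s r a0 (1 / 2) a1) R :=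
      u4T_nonneg (mul_nonneg hKt.le (ml _ _ _).le) (ml _ _ _).le hR
    calc _ ≤ 16384 * (CJ * mo t s r (-ε) 0 ε) * e ^ 3 *
          ((Cm * mo t s r (-dl) 1 0) *
            u4T (Kt * mo t s r (1 - c) 0 0) (mo t s r a0 (1 / 2) a1) R) := by
          rw [e7] at hJ2
          have := ml (-ε) 0 ε
          gcongr
      _ = 16384 * CJ * e ^ 3 * Cm * (mo t s r (-ε) 0 ε * (mo t s r (-dl) 1 0 *
            u4T (Kt * mo t s r (1 - c) 0 0) (mo t s r a0 (1 / 2) a1) R)) := by ring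
      _ ≤ 16384 * CJ * e ^ 3 * Cm * (E3 * T) := by
          refine mul_le_mul_of_nonneg_left ?_ (by positivity)
          unfold Vale.Agent.P141.H703.u4T
          have k1 := Z1 (5 / 3) (7 / 12) (5 / 12) (by norm_num) (by norm_num) (by norm_num)
            (by norm_num) h3 h3'
          have k2 := Z1 (8 / 5) (3 / 5) (2 / 5) (by norm_num) (by norm_num) (by norm_num)
            (by norm_num) h4 h4'
          have k3 := Z1 (4 / 3) (2 / 3) (1 / 3) (by norm_num) (by norm_num) (by norm_num)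
            (by norm_num) h5 h5'
          rw [hE3, add_mul, add_mul, mul_add, mul_add, mul_add, mul_add]
          exact add_le_add (add_le_add k1 k2) k3
      _ = _ := by ring
  unfold endV
  calc _ ≤ 5760000 * (Kt ^ 2 * e) * E1 * T + 46080000 * (Kt ^ 2 * e) * E2 * T +
        16384 * CJ * e ^ 3 * (Cm * E3) * T := add_le_add (add_le_add T1 T2) T3
    _ = _ := by ring

/-- **The numbers of the class**: `l = t ^ (1 + c₀) √s r ^ (69 / 200)`,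
`Λ = t ^ (1 + c₀ / 2) √s r ^ (71 / 200)`, columns `ρ ≤ c₀ / 2`, `r ^ (-18 / 25)`, heavy columns
`η ≥ c₀ / 16`, `τ ≥ 1 / 1000`, stop `dl ≤ c₀ / 100`, `c ≤ c₀ / 100`. -/
theorem capN {c c0 Kt e Cm Ch CR dl η τ ρ : ℝ} (hc0 : 0 < c0) (hc1 : c0 ≤ 1 / 10) (hKt : 0 < Kt)
    (he : 1 ≤ e) (hCm : 0 ≤ Cm) (hCh : 0 ≤ Ch) (hCR : 0 ≤ CR) (hc : c ≤ c0 / 100)
    (hdl : dl ≤ c0 / 100) (hη : c0 / 16 ≤ η) (hτ : 1 / 1000 ≤ τ) (hρ : ρ ≤ c0 / 2) :
    ∃ C : ℝ, 0 ≤ C ∧ ∀ t s r : ℝ, 0 < t → t ≤ 1 → 0 < s → 1 ≤ r → ∃ J : ℕ, ∀ m mh R : ℝ,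
      0 ≤ m → 0 ≤ mh → 0 ≤ R → m ≤ Cm * (t ^ (-dl) * s) → mh ≤ Ch * (t ^ η * s * r ^ (-τ)) →
      R ≤ CR * (t ^ (-ρ) * √s * r ^ (-(18 / 25 : ℝ))) →
      endV (Kt * t ^ (1 - c)) e (t ^ (1 + c0 / 2) * √s * r ^ (71 / 200 : ℝ))
        (t ^ (1 + c0) * √s * r ^ (69 / 200 : ℝ)) m mh R J ≤
        C * (t ^ (2 + c0 / 20) * s ^ (3 / 2 : ℝ) * r ^ (-(1 / 1000 : ℝ))) := by
  have hε : 0 < min (c0 / 100) (1 / 1000) := lt_min (by linarith) (by norm_num)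
  have hε1 : min (c0 / 100) (1 / 1000) ≤ c0 / 100 := min_le_left _ _
  have hε2 : min (c0 / 100) (1 / 1000) ≤ 1 / 1000 := min_le_right _ _
  exact endV_le (μ := c0 / 16) (ν := 1 / 1000) hKt he hCm hCh hCR hε (by linarith) hη
    (by norm_num) hτ (by linarith) (by norm_num) (by linarith) (by norm_num) (by linarith)
    (by linarith) (by linarith) (by linarith) (by linarith) (by linarith)

end

end Vale.Agent.P141.H338
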