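import Vale.Agent.P141.H971.EndV
import Vale.Agent.P141.H206.EN2
import Vale.Agent.P141.H588G.ChgW
import Vale.Agent.P141.H103.MidK
import Vale.Agent.P141.H677.Split

/-!
# P141, line (A), [T5] (hB): the node cap of the weighted family

`S2_QK`: the square trace of the weighted Gram matrix in the middle variable, in averages.
`capB_gen`: on one cube of scale `k` the sum over `x₀` of these square traces is at most
`2 ^ k l⁻¹ endV`, where `endV` is the END value of `H971.end_own_col` (heavy columns of mass `mh`).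
`capB_us`: the same for a uniform slot; `capB_T`: the same for the vectors `F₃ u` of the letters of
`H677` (`KT l u` built from the full `u`), the slot masked on a set `D` of points `(x₁, x₂)`.
-/

namespace Vale.Agent.P141.H338

open Finset Matrix Vale.Agent.P075 Vale.Agent.P141.PL
open Vale.Agent.P141.PL.H315 (avg avg_nonneg)
open Vale.Agent.P141.H550 (avg_comm avg_congr avg_mono avg_mul_left avg_mul_right)
open Vale.Agent.P141.H834 (UnifP LineB)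
open Vale.Agent.P141.H48 (BSl BUn US)
open Vale.Agent.P141.H703 (u4T)
open Vale.Agent.P141.H971 (gm gm_quad)
open Vale.Agent.P141.H103 (QW QK)
open Vale.Agent.P141.H588G (S2)
open Vale.Agent.P141.H677 (GT KT GT_form tr_T)

noncomputable section

theorem avg_iv' (k : ℕ) (m : ℤ) (f : ℤ → ℝ) :
    avg (iv k m) f = (2 ^ k : ℝ)⁻¹ * ∑ x ∈ iv k m, f x := by
  unfold Vale.Agent.P141.PL.H315.avg
  rw [H206.card_iv']
  push_cast
  ring

theorem sum_iv' (k : ℕ) (m : ℤ) (f : ℤ → ℝ) : ∑ z ∈ iv k m, f z = 2 ^ k * avg (iv k m) f := by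
  rw [avg_iv']
  field_simp

variable {κ : Type*} [Fintype κ]

theorem form_symm {M : Matrix κ κ ℝ} (hM : Mᵀ = M) (v w : κ → ℝ) :
    v ⬝ᵥ M *ᵥ w = w ⬝ᵥ M *ᵥ v := by
  rw [dotProduct_mulVec, ← mulVec_transpose, hM, dotProduct_comm]

/-- **The square trace in averages.** -/
theorem S2_QW {a k : ℕ} {W : ℤ → Matrix κ κ ℝ} {b : ℤ → ℤ → κ → ℝ} {n m : ℤ}
    (hW : ∀ x, (W x)ᵀ = W x) :
    S2 (QW a k b W n m) =
      avg (iv k m) fun c => avg (iv k m) fun y =>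
        (avg (iv a n) fun x => b x y ⬝ᵥ W x *ᵥ b x c) ^ 2 := by
  have hs := H103.QW_symm (a := a) (k := k) (b := b) hW n m
  have h1 : S2 (QW a k b W n m) = ∑ j : Ix k, ∑ i : Ix k, QW a k b W n m i j ^ 2 := by
    unfold Vale.Agent.P141.H588G.S2
    rw [Matrix.trace]
    refine Finset.sum_congr rfl fun j _ => ?_
    rw [diag_apply, mul_apply]
    refine Finset.sum_congr rfl fun i _ => ?_
    have h2 : QW a k b W n m j i = QW a k b W n m i j := by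
      conv_lhs => rw [← hs]
      rfl
    rw [h2]
    ring
  rw [h1]
  simp only [avg_iv', H588.sum_iv k m, Finset.mul_sum]
  refine Finset.sum_congr rfl fun j _ => Finset.sum_congr rfl fun i _ => ?_
  simp only [H103.QW, ← Finset.mul_sum]
  have h3 : (2 : ℝ) ^ a ≠ 0 := by positivity
  have h4 : (2 : ℝ) ^ k ≠ 0 := by positivity
  field_simp

variable [DecidableEq κ]

/-- **The END value** with heavy columns of mass `mh`. -/
def endV (d e Λ l m mh R : ℝ) (J : ℕ) : ℝ :=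
  5760000 * (d ^ 2 * e) * ((√(l / Λ) * m + mh) * √(√(l / Λ) * m + mh)) +
    46080000 * (d ^ 2 * e) * ((1 / 2) ^ J * (m * √m)) +
    16384 * J ^ 2 * e ^ 3 * (m * u4T d Λ R)

/-- **The node cap**, one cube: `q = (x₀, x₁, x₂)` indices of scale `k`, vectors
`b z x y = (χ z * G (z, x, y)) • w x y` on the cube, `w` a sub-gauge of the tree. -/
theorem capB_gen {d e Λ l R m mh : ℝ} (hd : 0 < d) (he : 1 ≤ e) (hΛ : 0 < Λ) (hR : 0 ≤ R)
    {N : ℕ} {Gt K : ℤ → ℕ → ℤ → Matrix κ κ ℝ} (h : ∀ x, H420.Tr l N (Gt x) (K x))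
    {k : ℕ} {q : Pt} {G : Pt → ℝ}
    (hU : UnifP d (iv k q.1) (iv k q.2.1) (iv k q.2.2) G)
    (hL : LineB e (iv k q.1) (iv k q.2.1) (iv k q.2.2) G) (w : ℤ → ℤ → κ → ℝ)
    (hw : ∀ x ∈ iv k q.2.1, ∀ y ∈ iv k q.2.2, ∑ i, w x y i ^ 2 ≤ 1)
    (H : ℤ → Prop) [DecidablePred H]
    (hcol : ∀ y ∈ iv k q.2.2, ¬ H y → (avg (iv k q.2.1) fun x => ∑ i, w x y i ^ 2) ≤ R)
    (hh : (avg (iv k q.2.2) fun y =>
      if H y then (avg (iv k q.2.1) fun x => ∑ i, w x y i ^ 2) else 0) ≤ mh)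
    (hm : (avg (iv k q.2.1) fun x => avg (iv k q.2.2) fun y => ∑ i, w x y i ^ 2) ≤ m)
    (hG : ∀ x ∈ iv k q.2.1, ∀ v : κ → ℝ,
      v ⬝ᵥ gm (iv k q.2.2) (fun i x y => w x y i) x *ᵥ v ≤ v ⬝ᵥ Gt x k q.2.2 *ᵥ v)
    (b : ℤ → ℤ → ℤ → κ → ℝ) (χ : ℤ → ℝ) (hχ : ∀ z ∈ iv k q.1, |χ z| ≤ 1)
    (hb : ∀ z ∈ iv k q.1, ∀ x ∈ iv k q.2.1, ∀ y ∈ iv k q.2.2,
      b z x y = (χ z * G (z, x, y)) • w x y) (J : ℕ) :
    ∑ z ∈ iv k q.1, S2 (QK (b z) K k k q.2.1 q.2.2) ≤ 2 ^ k * (l⁻¹ * endV d e Λ l m mh R J) := by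
  have hl : 0 < l := (h 0).l_pos
  have hKs : ∀ x, ((K x k q.2.2)⁻¹)ᵀ = (K x k q.2.2)⁻¹ := fun x => by
    have h1 : (K x k q.2.2)ᵀ = K x k q.2.2 := by
      have := ((h x).pdK k q.2.2).isHermitian
      rwa [IsHermitian, conjTranspose_eq_transpose_of_trivial] at this
    rw [transpose_nonsing_inv, h1]
  have main := H971.end_own_col hd he hl hΛ hR (H206.iv_ne k q.2.1) (H206.iv_ne k q.2.2)
    (G := fun p => G (p.2.2, p.1, p.2.1)) (H573.unifP_231 hU) (H573.lineB_231 hL)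
    (fun i x y => w x y i) hw H hcol hh hm (fun x => K x k q.2.2)
    (fun x _ => (h x).pdK k q.2.2) (fun x => Gt x k q.2.2) (fun x _ => (h x).sq k q.2.2) hG J
  simp only at main
  have step : ∀ z ∈ iv k q.1, S2 (QK (b z) K k k q.2.1 q.2.2) ≤
      avg (iv k q.2.2) fun c => avg (iv k q.2.2) fun y => (avg (iv k q.2.1) fun x =>
        ((fun i => w x y i) ⬝ᵥ (K x k q.2.2)⁻¹ *ᵥ (fun i => w x c i)) *
          (G (z, x, y) * G (z, x, c))) ^ 2 := by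
    intro z hz
    unfold H103.QK
    rw [S2_QW hKs]
    refine avg_mono fun c hc => avg_mono fun y hy => ?_
    have e1 : (avg (iv k q.2.1) fun x => b z x y ⬝ᵥ (K x k q.2.2)⁻¹ *ᵥ b z x c) =
        χ z ^ 2 * avg (iv k q.2.1) fun x =>
        ((fun i => w x y i) ⬝ᵥ (K x k q.2.2)⁻¹ *ᵥ (fun i => w x c i)) *
          (G (z, x, y) * G (z, x, c)) := by
      rw [← avg_mul_left]
      refine avg_congr fun x hx => ?_
      rw [hb z hz x hx y hy, hb z hz x hx c hc, mulVec_smul, smul_dotProduct, dotProduct_smul]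
      simp only [smul_eq_mul]
      ring
    rw [e1, mul_pow]
    have h1 : (χ z ^ 2) ^ 2 ≤ 1 := by
      have h2 := hχ z hz
      have h3 : χ z ^ 2 ≤ 1 := by rw [← sq_abs]; exact pow_le_one₀ (abs_nonneg _) h2
      exact pow_le_one₀ (sq_nonneg _) h3
    exact (mul_le_mul_of_nonneg_right h1 (sq_nonneg _)).trans (le_of_eq (one_mul _))
  refine (Finset.sum_le_sum step).trans ?_
  rw [sum_iv', avg_comm (iv k q.1) (iv k q.2.2)]
  refine mul_le_mul_of_nonneg_left ?_ (by positivity)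
  rw [← div_eq_inv_mul, le_div_iff₀ hl, mul_comm]
  refine le_trans (le_of_eq ?_) main
  congr 1
  exact avg_congr fun c _ => by rw [avg_comm (iv k q.1) (iv k q.2.2)]

/-- uniformity and line energies of a uniform slot on the cube of index `q` -/
theorem us_box {n : ℕ} {d e cP : ℝ} {F : ℕ → Pt → ℝ} (hF : US n d e cP F) {k : ℕ} (hk : k < n)
    (q : Pt) : UnifP d (iv k q.1) (iv k q.2.1) (iv k q.2.2) (F (k + 1)) ∧
      LineB e (iv k q.1) (iv k q.2.1) (iv k q.2.2) (F (k + 1)) := by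
  obtain ⟨_, _, hU, Q, hB⟩ := hF
  refine ⟨?_, H206.lineB_of hB hk q⟩
  have h1 := H944.unifP_of_sum (k := k) (q := (2 ^ k * q.1, 2 ^ k * q.2.1, 2 ^ k * q.2.2))
    (d := d) (G := F (k + 1)) fun u => hU k hk _ u
  simp only [H206.iv_eq] at h1
  exact h1

/-- **The node cap for a uniform slot.** -/
theorem capB_us {n : ℕ} {d e cP Λ l R m mh : ℝ} {F : ℕ → Pt → ℝ} (hF : US n d e cP F)
    (hd : 0 < d) (he : 1 ≤ e) (hΛ : 0 < Λ) (hR : 0 ≤ R)
    {N : ℕ} {Gt K : ℤ → ℕ → ℤ → Matrix κ κ ℝ} (h : ∀ x, H420.Tr l N (Gt x) (K x))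
    {k : ℕ} (hk : k < n) (q : Pt) (w : ℤ → ℤ → κ → ℝ)
    (hw : ∀ x ∈ iv k q.2.1, ∀ y ∈ iv k q.2.2, ∑ i, w x y i ^ 2 ≤ 1)
    (H : ℤ → Prop) [DecidablePred H]
    (hcol : ∀ y ∈ iv k q.2.2, ¬ H y → (avg (iv k q.2.1) fun x => ∑ i, w x y i ^ 2) ≤ R)
    (hh : (avg (iv k q.2.2) fun y =>
      if H y then (avg (iv k q.2.1) fun x => ∑ i, w x y i ^ 2) else 0) ≤ mh)
    (hm : (avg (iv k q.2.1) fun x => avg (iv k q.2.2) fun y => ∑ i, w x y i ^ 2) ≤ m)
    (hG : ∀ x ∈ iv k q.2.1, ∀ v : κ → ℝ,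
      v ⬝ᵥ gm (iv k q.2.2) (fun i x y => w x y i) x *ᵥ v ≤ v ⬝ᵥ Gt x k q.2.2 *ᵥ v)
    (b : ℤ → ℤ → ℤ → κ → ℝ) (χ : ℤ → ℝ) (hχ : ∀ z ∈ iv k q.1, |χ z| ≤ 1)
    (hb : ∀ z ∈ iv k q.1, ∀ x ∈ iv k q.2.1, ∀ y ∈ iv k q.2.2,
      b z x y = (χ z * F (k + 1) (z, x, y)) • w x y) (J : ℕ) :
    ∑ z ∈ iv k q.1, S2 (QK (b z) K k k q.2.1 q.2.2) ≤ 2 ^ k * (l⁻¹ * endV d e Λ l m mh R J) :=
  capB_gen hd he hΛ hR h (us_box hF hk q).1 (us_box hF hk q).2 w hw H hcol hh hm hG b χ hχ hb J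

open scoped Classical in
/-- the column `y` of `u` off the set `D` on the cell of `x₁` -/
def clD (D : ℤ → ℤ → Prop) (u : ℤ → ℤ → κ → ℝ) (k : ℕ) (n y : ℤ) : ℝ :=
  avg (iv k n) fun x => if D x y then 0 else u x y ⬝ᵥ u x y

omit [DecidableEq κ] in
theorem clD_nonneg (D : ℤ → ℤ → Prop) (u : ℤ → ℤ → κ → ℝ) (k : ℕ) (n y : ℤ) :
    0 ≤ clD D u k n y := by
  refine avg_nonneg fun x _ => ?_
  split_ifs
  · exact le_rfl
  · exact dotProduct_self_nonneg' _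
where
  dotProduct_self_nonneg' (v : κ → ℝ) : 0 ≤ v ⬝ᵥ v :=
    Finset.sum_nonneg fun _ _ => mul_self_nonneg _

open scoped Classical in
/-- **The node cap in the letters of the gap piece**: `K = KT l u` from the full `u`; the slot
`Fk = F (k + 1)` off the set `D` of points `(x₁, x₂)`, times a factor `χ` of `x₀`, and `0` on `D`. -/
theorem capB_T {n : ℕ} {d e cP Λ l R m mh : ℝ} {F : ℕ → Pt → ℝ} (hF : US n d e cP F)
    (hd : 0 < d) (he : 1 ≤ e) (hl : 0 < l) (hΛ : 0 < Λ) (hR : 0 ≤ R)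
    {k : ℕ} (hk : k < n) (q : Pt) (u : ℤ → ℤ → κ → ℝ) (D : ℤ → ℤ → Prop)
    (hu : ∀ x ∈ iv k q.2.1, ∀ y ∈ iv k q.2.2, ¬ D x y → u x y ⬝ᵥ u x y ≤ 1)
    (hh : (avg (iv k q.2.2) fun y =>
      if R < clD D u k q.2.1 y then clD D u k q.2.1 y else 0) ≤ mh)
    (hm : avg (iv k q.2.2) (clD D u k q.2.1) ≤ m)
    (Fk : Pt → ℝ) (χ : ℤ → ℝ) (hχ : ∀ z ∈ iv k q.1, |χ z| ≤ 1)
    (hFk : ∀ z ∈ iv k q.1, ∀ x ∈ iv k q.2.1, ∀ y ∈ iv k q.2.2,
      Fk (z, x, y) = if D x y then 0 else χ z * F (k + 1) (z, x, y)) (J : ℕ) :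
    ∑ z ∈ iv k q.1, S2 (QK (fun x y => Fk (z, x, y) • u x y) (KT l u) k k q.2.1 q.2.2) ≤
      2 ^ k * (l⁻¹ * endV d e Λ l m mh R J) := by
  set w : ℤ → ℤ → κ → ℝ := fun x y => if D x y then 0 else u x y with hwd
  have e0 : ∀ x y, ∑ i, w x y i ^ 2 = if D x y then 0 else u x y ⬝ᵥ u x y := by
    intro x y
    simp only [hwd]
    split_ifs
    · simp
    · exact Finset.sum_congr rfl fun i _ => sq _
  have e1 : ∀ y, (avg (iv k q.2.1) fun x => ∑ i, w x y i ^ 2) = clD D u k q.2.1 y := fun y =>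
    avg_congr fun x _ => e0 x y
  refine capB_us hF hd he hΛ hR (tr_T hl n u) hk q w (fun x hx y hy => ?_)
    (fun y => R < clD D u k q.2.1 y) (fun y _ hy => ?_) ?_ ?_ (fun x hx v => ?_)
    (fun z x y => Fk (z, x, y) • u x y) χ hχ (fun z hz x hx y hy => ?_) J
  · rw [e0]
    split_ifs with hD
    · exact zero_le_one
    · exact hu x hx y hy hD
  · rw [e1]
    exact not_lt.1 hy
  · simp only [e1]
    exact hh
  · rw [avg_comm]
    simp only [e1]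
    exact hm
  · rw [gm_quad, GT_form, ← avg_iv']
    refine avg_mono fun y _ => ?_
    simp only [hwd]
    split_ifs
    · simpa using sq_nonneg _
    · exact le_rfl
  · show Fk (z, x, y) • u x y = (χ z * F (k + 1) (z, x, y)) • (if D x y then 0 else u x y)
    rw [hFk z hz x hx y hy]
    split_ifs
    · simp
    · rfl

end

end Vale.Agent.P141.H338
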