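import Vale.Agent.P141.H958.MlC
import Vale.Agent.P141.H958.PairsE
import Vale.Agent.P141.H170.UEh

/-!
# P141, CE, module Lab, part 1: Gram matrices of labelled functions

The encodings `encL`, `encR`, `dup` of H958 (`L` last digits = label).  The Gram matrix in the
right variable of an encoded function, its `L²` norm and S4 norm, Hilbert–Schmidt norms of
differences, traces of products.
-/

namespace Vale.Agent.P141.H338

open Finset Matrix Vale.Agent.P075 Vale.Agent.P141.PL Vale.Agent.P141.PL.H588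
open Vale.Agent.P141.H736 Vale.Agent.P141.H958

noncomputable section

/-! ### the Gram kernel -/

/-- The Gram kernel of a pair of functions, outer block of scale `a`, index `n`, normalised for
the middle scale `b`. -/
def gk (a b : ℕ) (n : ℤ) (F H : ℤ → ℤ → ℝ) (y y' : ℤ) : ℝ :=
  ((2 : ℝ) ^ a * 2 ^ b)⁻¹ * ∑ x ∈ iv a n, F x y * H x y'

theorem gk_comm (a b : ℕ) (n : ℤ) (F H : ℤ → ℤ → ℝ) (y y' : ℤ) :
    gk a b n F H y y' = gk a b n H F y' y := by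
  unfold gk
  congr 1
  exact sum_congr rfl fun x _ => mul_comm _ _

theorem Xg_gk (a b : ℕ) (F : ℤ → ℤ → ℝ) (n m : ℤ) (j j' : Ix b) :
    Xg a b F n m j j' = gk a b n F F (2 ^ b * m + val b j) (2 ^ b * m + val b j') := by
  rw [Xg_apply]
  unfold gk
  rw [sum_iv a n]

/-- Sums over the fine grid of functions without label. -/
theorem sum_iv_ix (L k : ℕ) (m : ℤ) (f : ℤ → ℝ) :
    ∑ x ∈ iv (k + L) m, f (ix L x) = 2 ^ L * ∑ x ∈ iv k m, f x := by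
  rw [sum_iv_add L k m fun _ x => f x, mul_sum]
  exact sum_congr rfl fun x _ => sum_lbs_const L (f x)

theorem gk_encL (L a b : ℕ) (n : ℤ) (F H : ℤ → ℤ → ℤ → ℝ) (y y' : ℤ) :
    gk (a + L) (b + L) n (encL L F) (encL L H) y y' =
      (2 ^ L)⁻¹ * ∑ l ∈ lbs L, gk a b n (F l) (H l) (ix L y) (ix L y') := by
  unfold gk
  simp only [encL_apply]
  rw [sum_iv_add L a n fun l x => √(2 ^ L) * F l x (ix L y) * (√(2 ^ L) * H l x (ix L y')),
    sum_comm]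
  have h := sqrt_two_mul L
  have e : ∀ l ∈ lbs L, ∑ x ∈ iv a n, √(2 ^ L) * F l x (ix L y) * (√(2 ^ L) * H l x (ix L y')) =
      2 ^ L * ∑ x ∈ iv a n, F l x (ix L y) * H l x (ix L y') := by
    intro l _
    rw [mul_sum]
    refine sum_congr rfl fun x _ => ?_
    calc √(2 ^ L) * F l x (ix L y) * (√(2 ^ L) * H l x (ix L y'))
        = (√(2 ^ L) * √(2 ^ L)) * (F l x (ix L y) * H l x (ix L y')) := by ring
      _ = _ := by rw [h]
  rw [sum_congr rfl e, ← mul_sum, ← mul_sum, pow_add, pow_add]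
  have h2 : (2 : ℝ) ^ L ≠ 0 := by positivity
  have h3 : (2 : ℝ) ^ a ≠ 0 := by positivity
  have h4 : (2 : ℝ) ^ b ≠ 0 := by positivity
  field_simp

theorem gk_encR (L a b : ℕ) (n : ℤ) (F H : ℤ → ℤ → ℤ → ℝ) (y y' : ℤ) :
    gk (a + L) (b + L) n (encR L F) (encR L H) y y' =
      gk a b n (F (lb L y)) (H (lb L y')) (ix L y) (ix L y') := by
  unfold gk
  simp only [encR_apply]
  rw [sum_iv_ix L a n fun x => √(2 ^ L) * F (lb L y) x (ix L y) *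
    (√(2 ^ L) * H (lb L y') x (ix L y'))]
  have h := sqrt_two_mul L
  have e : ∑ x ∈ iv a n, √(2 ^ L) * F (lb L y) x (ix L y) *
      (√(2 ^ L) * H (lb L y') x (ix L y')) =
      2 ^ L * ∑ x ∈ iv a n, F (lb L y) x (ix L y) * H (lb L y') x (ix L y') := by
    rw [mul_sum]
    refine sum_congr rfl fun x _ => ?_
    calc √(2 ^ L) * F (lb L y) x (ix L y) * (√(2 ^ L) * H (lb L y') x (ix L y'))
        = (√(2 ^ L) * √(2 ^ L)) * (F (lb L y) x (ix L y) * H (lb L y') x (ix L y')) := by ring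
      _ = _ := by rw [h]
  rw [e, pow_add, pow_add]
  have h2 : (2 : ℝ) ^ L ≠ 0 := by positivity
  have h3 : (2 : ℝ) ^ a ≠ 0 := by positivity
  have h4 : (2 : ℝ) ^ b ≠ 0 := by positivity
  field_simp

theorem gk_dup (L a b : ℕ) (n : ℤ) (F H : ℤ → ℤ → ℝ) (y y' : ℤ) :
    gk (a + L) (b + L) n (dup L F) (dup L H) y y' =
      (2 ^ L)⁻¹ * gk a b n F H (ix L y) (ix L y') := by
  unfold gk
  simp only [dup_apply]
  rw [sum_iv_ix L a n fun x => F x (ix L y) * H x (ix L y'), pow_add, pow_add]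
  have h2 : (2 : ℝ) ^ L ≠ 0 := by positivity
  have h3 : (2 : ℝ) ^ a ≠ 0 := by positivity
  have h4 : (2 : ℝ) ^ b ≠ 0 := by positivity
  field_simp

/-! ### traces -/

/-- Trace of a product of two Gram matrices. -/
theorem trace_Xg_mul (a a' b : ℕ) (F H : ℤ → ℤ → ℝ) (n n' m : ℤ) :
    (Xg a b F n m * Xg a' b H n' m).trace =
      ∑ y ∈ iv b m, ∑ y' ∈ iv b m, gk a b n F F y y' * gk a' b n' H H y y' := by
  rw [Matrix.trace]
  simp only [Matrix.diag_apply, Matrix.mul_apply, Xg_gk]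
  rw [sum_iv b m]
  refine sum_congr rfl fun j _ => ?_
  rw [sum_iv b m]
  refine sum_congr rfl fun j' _ => ?_
  rw [gk_comm a' b n' H H (2 ^ b * m + val b j') (2 ^ b * m + val b j)]

theorem trace_Xg_gk (a b : ℕ) (F : ℤ → ℤ → ℝ) (n m : ℤ) :
    (Xg a b F n m).trace = ∑ y ∈ iv b m, gk a b n F F y y := by
  rw [Matrix.trace]
  simp only [Matrix.diag_apply, Xg_gk]
  rw [sum_iv b m]

/-- Hilbert–Schmidt norm of a difference of two Gram matrices. -/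
theorem hs_sub_sq (a a' b : ℕ) (F H : ℤ → ℤ → ℝ) (n n' m : ℤ) :
    H170.hs (Xg a b F n m - Xg a' b H n' m) ^ 2 =
      ∑ y ∈ iv b m, ∑ y' ∈ iv b m, (gk a b n F F y y' - gk a' b n' H H y y') ^ 2 := by
  rw [H170.hs_sq, Matrix.trace]
  simp only [Matrix.diag_apply, Matrix.mul_apply, Matrix.transpose_apply, Matrix.sub_apply, Xg_gk]
  rw [sum_comm, sum_iv b m]
  refine sum_congr rfl fun j _ => ?_
  rw [sum_iv b m]
  exact sum_congr rfl fun j' _ => (pow_two _).symm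

theorem hs_Xg_sq (a b : ℕ) (F : ℤ → ℤ → ℝ) (n m : ℤ) :
    H170.hs (Xg a b F n m) ^ 2 = s4 a b F n m := by
  rw [H170.hs_sq_psd (Xg_psd ..)]
  rfl

theorem s4_gk (a b : ℕ) (F : ℤ → ℤ → ℝ) (n m : ℤ) :
    s4 a b F n m = ∑ y ∈ iv b m, ∑ y' ∈ iv b m, gk a b n F F y y' ^ 2 := by
  unfold s4
  rw [trace_Xg_mul]
  exact sum_congr rfl fun y _ => sum_congr rfl fun y' _ => (pow_two _).symm

/-! ### sums over the middle variable of the fine grid -/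

theorem sum2_ix (L b : ℕ) (m : ℤ) (f : ℤ → ℤ → ℝ) :
    ∑ y ∈ iv (b + L) m, ∑ y' ∈ iv (b + L) m, f (ix L y) (ix L y') =
      2 ^ L * 2 ^ L * ∑ y ∈ iv b m, ∑ y' ∈ iv b m, f y y' := by
  have e : ∀ y, ∑ y' ∈ iv (b + L) m, f (ix L y) (ix L y') =
      2 ^ L * ∑ y' ∈ iv b m, f (ix L y) y' := fun y => sum_iv_ix L b m fun y' => f (ix L y) y'
  simp only [e]
  rw [← mul_sum, sum_iv_ix L b m fun y => ∑ y' ∈ iv b m, f y y']
  ring

theorem sum2_lb (L b : ℕ) (m : ℤ) (f : ℤ → ℤ → ℤ → ℤ → ℝ) :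
    ∑ y ∈ iv (b + L) m, ∑ y' ∈ iv (b + L) m, f (lb L y) (ix L y) (lb L y') (ix L y') =
      ∑ y ∈ iv b m, ∑ l ∈ lbs L, ∑ y' ∈ iv b m, ∑ l' ∈ lbs L, f l y l' y' := by
  rw [sum_iv_add L b m fun l y => ∑ y' ∈ iv (b + L) m, f l y (lb L y') (ix L y')]
  refine sum_congr rfl fun y _ => sum_congr rfl fun l _ => ?_
  rw [sum_iv_add L b m fun l' y' => f l y l' y']

/-- The Gram kernel summed over the labels. -/
def gkS (L a b : ℕ) (n : ℤ) (F H : ℤ → ℤ → ℤ → ℝ) (y y' : ℤ) : ℝ :=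
  ∑ l ∈ lbs L, gk a b n (F l) (H l) y y'

/-! ### label on the left (outer) variable -/

theorem trace_mul_encL (L a a' b : ℕ) (F H : ℤ → ℤ → ℤ → ℝ) (n n' m : ℤ) :
    (Xg (a + L) (b + L) (encL L F) n m * Xg (a' + L) (b + L) (encL L H) n' m).trace =
      ∑ y ∈ iv b m, ∑ y' ∈ iv b m, gkS L a b n F F y y' * gkS L a' b n' H H y y' := by
  rw [trace_Xg_mul]
  simp only [gk_encL]
  rw [sum2_ix L b m fun y y' => ((2 ^ L)⁻¹ * ∑ l ∈ lbs L, gk a b n (F l) (F l) y y') *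
    ((2 ^ L)⁻¹ * ∑ l ∈ lbs L, gk a' b n' (H l) (H l) y y')]
  rw [mul_sum]
  refine sum_congr rfl fun y _ => ?_
  rw [mul_sum]
  refine sum_congr rfl fun y' _ => ?_
  unfold gkS
  have h2 : (2 : ℝ) ^ L ≠ 0 := by positivity
  field_simp

theorem trace_mul_encL_dup (L a a' b : ℕ) (F : ℤ → ℤ → ℤ → ℝ) (H : ℤ → ℤ → ℝ) (n n' m : ℤ) :
    (Xg (a + L) (b + L) (encL L F) n m * Xg (a' + L) (b + L) (dup L H) n' m).trace =
      ∑ y ∈ iv b m, ∑ y' ∈ iv b m, gkS L a b n F F y y' * gk a' b n' H H y y' := by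
  rw [trace_Xg_mul]
  simp only [gk_encL, gk_dup]
  rw [sum2_ix L b m fun y y' => ((2 ^ L)⁻¹ * ∑ l ∈ lbs L, gk a b n (F l) (F l) y y') *
    ((2 ^ L)⁻¹ * gk a' b n' H H y y')]
  rw [mul_sum]
  refine sum_congr rfl fun y _ => ?_
  rw [mul_sum]
  refine sum_congr rfl fun y' _ => ?_
  unfold gkS
  have h2 : (2 : ℝ) ^ L ≠ 0 := by positivity
  field_simp

theorem trace_mul_dup (L a a' b : ℕ) (F H : ℤ → ℤ → ℝ) (n n' m : ℤ) :
    (Xg (a + L) (b + L) (dup L F) n m * Xg (a' + L) (b + L) (dup L H) n' m).trace =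
      (Xg a b F n m * Xg a' b H n' m).trace := by
  rw [trace_Xg_mul, trace_Xg_mul]
  simp only [gk_dup]
  rw [sum2_ix L b m fun y y' => (2 ^ L)⁻¹ * gk a b n F F y y' * ((2 ^ L)⁻¹ *
    gk a' b n' H H y y')]
  rw [mul_sum]
  refine sum_congr rfl fun y _ => ?_
  rw [mul_sum]
  refine sum_congr rfl fun y' _ => ?_
  have h2 : (2 : ℝ) ^ L ≠ 0 := by positivity
  field_simp

/-- Label on the right (middle) variable. -/
theorem trace_mul_encR (L a a' b : ℕ) (F H : ℤ → ℤ → ℤ → ℝ) (n n' m : ℤ) :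
    (Xg (a + L) (b + L) (encR L F) n m * Xg (a' + L) (b + L) (encR L H) n' m).trace =
      ∑ y ∈ iv b m, ∑ l ∈ lbs L, ∑ y' ∈ iv b m, ∑ l' ∈ lbs L,
        gk a b n (F l) (F l') y y' * gk a' b n' (H l) (H l') y y' := by
  rw [trace_Xg_mul]
  simp only [gk_encR]
  exact sum2_lb L b m fun l y l' y' => gk a b n (F l) (F l') y y' * gk a' b n' (H l) (H l') y y'

theorem trace_encL (L a b : ℕ) (F : ℤ → ℤ → ℤ → ℝ) (n m : ℤ) :
    (Xg (a + L) (b + L) (encL L F) n m).trace = ∑ l ∈ lbs L, (Xg a b (F l) n m).trace := by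
  rw [trace_Xg_gk]
  simp only [gk_encL, trace_Xg_gk]
  rw [sum_iv_ix L b m fun y => (2 ^ L)⁻¹ * ∑ l ∈ lbs L, gk a b n (F l) (F l) y y, ← mul_sum,
    mul_inv_cancel_left₀ (by positivity), sum_comm]

theorem trace_encR (L a b : ℕ) (F : ℤ → ℤ → ℤ → ℝ) (n m : ℤ) :
    (Xg (a + L) (b + L) (encR L F) n m).trace = ∑ l ∈ lbs L, (Xg a b (F l) n m).trace := by
  rw [trace_Xg_gk]
  simp only [gk_encR, trace_Xg_gk]
  rw [sum_iv_add L b m fun l y => gk a b n (F l) (F l) y y, sum_comm]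

theorem trace_dup (L a b : ℕ) (F : ℤ → ℤ → ℝ) (n m : ℤ) :
    (Xg (a + L) (b + L) (dup L F) n m).trace = (Xg a b F n m).trace := by
  rw [trace_Xg_gk, trace_Xg_gk]
  simp only [gk_dup]
  rw [sum_iv_ix L b m fun y => (2 ^ L)⁻¹ * gk a b n F F y y, ← mul_sum,
    mul_inv_cancel_left₀ (by positivity)]

/-! ### Hilbert–Schmidt norms of differences -/

theorem hs_sub_encL (L a a' b : ℕ) (F H : ℤ → ℤ → ℤ → ℝ) (n n' m : ℤ) :
    H170.hs (Xg (a + L) (b + L) (encL L F) n m - Xg (a' + L) (b + L) (encL L H) n' m) ^ 2 =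
      ∑ y ∈ iv b m, ∑ y' ∈ iv b m, (gkS L a b n F F y y' - gkS L a' b n' H H y y') ^ 2 := by
  rw [hs_sub_sq]
  simp only [gk_encL]
  rw [sum2_ix L b m fun y y' => ((2 ^ L)⁻¹ * ∑ l ∈ lbs L, gk a b n (F l) (F l) y y' -
    (2 ^ L)⁻¹ * ∑ l ∈ lbs L, gk a' b n' (H l) (H l) y y') ^ 2]
  rw [mul_sum]
  refine sum_congr rfl fun y _ => ?_
  rw [mul_sum]
  refine sum_congr rfl fun y' _ => ?_
  unfold gkS
  have h2 : (2 : ℝ) ^ L ≠ 0 := by positivity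
  field_simp

theorem hs_sub_encR (L a a' b : ℕ) (F H : ℤ → ℤ → ℤ → ℝ) (n n' m : ℤ) :
    H170.hs (Xg (a + L) (b + L) (encR L F) n m - Xg (a' + L) (b + L) (encR L H) n' m) ^ 2 =
      ∑ y ∈ iv b m, ∑ l ∈ lbs L, ∑ y' ∈ iv b m, ∑ l' ∈ lbs L,
        (gk a b n (F l) (F l') y y' - gk a' b n' (H l) (H l') y y') ^ 2 := by
  rw [hs_sub_sq]
  simp only [gk_encR]
  exact sum2_lb L b m fun l y l' y' =>
    (gk a b n (F l) (F l') y y' - gk a' b n' (H l) (H l') y y') ^ 2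

theorem hs_sub_dup (L a a' b : ℕ) (F H : ℤ → ℤ → ℝ) (n n' m : ℤ) :
    H170.hs (Xg (a + L) (b + L) (dup L F) n m - Xg (a' + L) (b + L) (dup L H) n' m) ^ 2 =
      H170.hs (Xg a b F n m - Xg a' b H n' m) ^ 2 := by
  rw [hs_sub_sq, hs_sub_sq]
  simp only [gk_dup]
  rw [sum2_ix L b m fun y y' => ((2 ^ L)⁻¹ * gk a b n F F y y' -
    (2 ^ L)⁻¹ * gk a' b n' H H y y') ^ 2]
  rw [mul_sum]
  refine sum_congr rfl fun y _ => ?_
  rw [mul_sum]
  refine sum_congr rfl fun y' _ => ?_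
  have h2 : (2 : ℝ) ^ L ≠ 0 := by positivity
  field_simp

/-! ### S4 norms -/

/-- The labelled S4 energy, label on the left variable. -/
def s4L (L a b : ℕ) (F : ℤ → ℤ → ℤ → ℝ) (n m : ℤ) : ℝ :=
  (((2 : ℝ) ^ a * 2 ^ b) ^ 2)⁻¹ *
    ∑ y ∈ iv b m, ∑ y' ∈ iv b m, (∑ x ∈ iv a n, ∑ l ∈ lbs L, F l x y * F l x y') ^ 2

/-- The labelled S4 energy, label on the right variable. -/
def s4R (L a b : ℕ) (F : ℤ → ℤ → ℤ → ℝ) (n m : ℤ) : ℝ :=
  (((2 : ℝ) ^ a * 2 ^ b) ^ 2)⁻¹ *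
    ∑ x ∈ iv a n, ∑ x' ∈ iv a n, (∑ y ∈ iv b m, ∑ l ∈ lbs L, F l x y * F l x' y) ^ 2

theorem s4L_nonneg (L a b : ℕ) (F : ℤ → ℤ → ℤ → ℝ) (n m : ℤ) : 0 ≤ s4L L a b F n m :=
  mul_nonneg (by positivity) (sum_nonneg fun _ _ => sum_nonneg fun _ _ => sq_nonneg _)

theorem s4R_nonneg (L a b : ℕ) (F : ℤ → ℤ → ℤ → ℝ) (n m : ℤ) : 0 ≤ s4R L a b F n m :=
  mul_nonneg (by positivity) (sum_nonneg fun _ _ => sum_nonneg fun _ _ => sq_nonneg _)

theorem s4R_swap (L a b : ℕ) (F : ℤ → ℤ → ℤ → ℝ) (n m : ℤ) :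
    s4R L a b F n m = s4L L b a (fun l x y => F l y x) m n := by
  unfold s4R s4L
  rw [mul_comm ((2 : ℝ) ^ a)]

theorem gkS_eq (L a b : ℕ) (n : ℤ) (F H : ℤ → ℤ → ℤ → ℝ) (y y' : ℤ) :
    gkS L a b n F H y y' =
      ((2 : ℝ) ^ a * 2 ^ b)⁻¹ * ∑ x ∈ iv a n, ∑ l ∈ lbs L, F l x y * H l x y' := by
  unfold gkS gk
  rw [← mul_sum, sum_comm]

/-- **S4 of the encoding with the label on the left variable.** -/
theorem s4_encL (L a b : ℕ) (F : ℤ → ℤ → ℤ → ℝ) (n m : ℤ) :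
    s4 (a + L) (b + L) (encL L F) n m = s4L L a b F n m := by
  unfold s4
  rw [trace_mul_encL]
  simp only [gkS_eq]
  unfold s4L
  rw [mul_sum]
  refine sum_congr rfl fun y _ => ?_
  rw [mul_sum]
  refine sum_congr rfl fun y' _ => ?_
  rw [← inv_pow]
  ring

/-- **S4 of the encoding with the label on the right variable.** -/
theorem s4_encR (L a b : ℕ) (F : ℤ → ℤ → ℤ → ℝ) (n m : ℤ) :
    s4 (a + L) (b + L) (encR L F) n m = s4R L a b F n m := by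
  rw [s4_swap, s4R_swap, ← s4_encL]
  rfl

theorem s4_dup (L a b : ℕ) (F : ℤ → ℤ → ℝ) (n m : ℤ) :
    s4 (a + L) (b + L) (dup L F) n m = s4 a b F n m := by
  unfold s4
  exact trace_mul_dup ..

/-- The other form of the label on the right variable. -/
theorem s4R_gk (L a b : ℕ) (F : ℤ → ℤ → ℤ → ℝ) (n m : ℤ) :
    s4R L a b F n m = ∑ y ∈ iv b m, ∑ l ∈ lbs L, ∑ y' ∈ iv b m, ∑ l' ∈ lbs L,
      gk a b n (F l) (F l') y y' ^ 2 := by
  rw [← s4_encR]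
  unfold s4
  rw [trace_mul_encR]
  exact sum_congr rfl fun y _ => sum_congr rfl fun l _ => sum_congr rfl fun y' _ =>
    sum_congr rfl fun l' _ => (pow_two _).symm

theorem s4L_gk (L a b : ℕ) (F : ℤ → ℤ → ℤ → ℝ) (n m : ℤ) :
    s4L L a b F n m = ∑ y ∈ iv b m, ∑ y' ∈ iv b m, gkS L a b n F F y y' ^ 2 := by
  rw [← s4_encL]
  unfold s4
  rw [trace_mul_encL]
  exact sum_congr rfl fun y _ => sum_congr rfl fun y' _ => (pow_two _).symm

end

end Vale.Agent.P141.H338
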