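import Vale.Agent.P141.H338.Lab2

/-!
# P141, CE, module Lab, part 3: projections of the labels

At every point `y` of the vertex which carries the label, `p y` is an orthogonal projection of
`ℝ ^ (lbs L)`.  In the encoding this is an orthogonal projection `PM` of the fine middle variable.
-/

namespace Vale.Agent.P141.H338

open Finset Matrix Vale.Agent.P075 Vale.Agent.P141.PL Vale.Agent.P141.PL.H588
open Vale.Agent.P141.H736 Vale.Agent.P141.H958
open Vale.Agent.P141.H170 (Prj MidP evP rm rmr)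

noncomputable section

open scoped Classical

variable {L N : ℕ} {R S : ℤ}

/-! ### label projections -/

/-- `p y` is an orthogonal projection of `ℝ ^ (lbs L)` for every `y` of the block. -/
structure LPrj (L : ℕ) (B : Finset ℤ) (p : ℤ → ℤ → ℤ → ℝ) : Prop where
  symm : ∀ y ∈ B, ∀ l ∈ lbs L, ∀ l' ∈ lbs L, p y l l' = p y l' l
  idem : ∀ y ∈ B, ∀ l ∈ lbs L, ∀ l'' ∈ lbs L, ∑ l' ∈ lbs L, p y l l' * p y l' l'' = p y l l''

theorem LPrj.zero (L : ℕ) (B : Finset ℤ) : LPrj L B (fun _ _ _ => 0) where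
  symm := fun _ _ _ _ _ _ => rfl
  idem := fun _ _ _ _ _ _ => by simp

theorem LPrj.mono {B B' : Finset ℤ} {p : ℤ → ℤ → ℤ → ℝ} (h : LPrj L B p) (hB : B' ⊆ B) :
    LPrj L B' p where
  symm := fun y hy => h.symm y (hB hy)
  idem := fun y hy => h.idem y (hB hy)

/-- Application of a label matrix to a label vector. -/
def lap (L : ℕ) (q : ℤ → ℤ → ℝ) (u : ℤ → ℝ) : ℤ → ℝ := fun l => ∑ l' ∈ lbs L, u l' * q l' l

theorem lap_zero (L : ℕ) (u : ℤ → ℝ) (l : ℤ) : lap L (fun _ _ => 0) u l = 0 := by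
  unfold lap
  simp

/-- The projected labelled function, label on the right variable. -/
def lprR (L : ℕ) (p : ℤ → ℤ → ℤ → ℝ) (F : ℤ → ℤ → ℤ → ℝ) : ℤ → ℤ → ℤ → ℝ :=
  fun l x y => lap L (p y) (fun l' => F l' x y) l

/-- The projected labelled function, label on the left variable. -/
def lprL (L : ℕ) (p : ℤ → ℤ → ℤ → ℝ) (F : ℤ → ℤ → ℤ → ℝ) : ℤ → ℤ → ℤ → ℝ :=
  fun l x y => lap L (p x) (fun l' => F l' x y) l

theorem lprR_apply (L : ℕ) (p : ℤ → ℤ → ℤ → ℝ) (F : ℤ → ℤ → ℤ → ℝ) (l x y : ℤ) :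
    lprR L p F l x y = ∑ l' ∈ lbs L, F l' x y * p y l' l := rfl

theorem lprL_apply (L : ℕ) (p : ℤ → ℤ → ℤ → ℝ) (F : ℤ → ℤ → ℤ → ℝ) (l x y : ℤ) :
    lprL L p F l x y = ∑ l' ∈ lbs L, F l' x y * p x l' l := rfl

/-- The scalar product of label vectors. -/
def ldot (L : ℕ) (u v : ℤ → ℝ) : ℝ := ∑ l ∈ lbs L, u l * v l

theorem ldot_comm (L : ℕ) (u v : ℤ → ℝ) : ldot L u v = ldot L v u :=
  sum_congr rfl fun _ _ => mul_comm _ _

theorem ldot_sub_left (L : ℕ) (u u' v : ℤ → ℝ) :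
    ldot L (fun l => u l - u' l) v = ldot L u v - ldot L u' v := by
  unfold ldot
  rw [← sum_sub_distrib]
  exact sum_congr rfl fun _ _ => by ring

theorem ldot_sub_right (L : ℕ) (u v v' : ℤ → ℝ) :
    ldot L u (fun l => v l - v' l) = ldot L u v - ldot L u v' := by
  rw [ldot_comm, ldot_sub_left, ldot_comm L v, ldot_comm L v']

section point

variable {q : ℤ → ℤ → ℝ} (hs : ∀ l ∈ lbs L, ∀ l' ∈ lbs L, q l l' = q l' l)
  (hi : ∀ l ∈ lbs L, ∀ l'' ∈ lbs L, ∑ l' ∈ lbs L, q l l' * q l' l'' = q l l'')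

include hs in
/-- symmetry -/
theorem ldot_lap (u v : ℤ → ℝ) : ldot L (lap L q u) v = ldot L u (lap L q v) := by
  unfold ldot lap
  simp only [sum_mul, mul_sum]
  rw [sum_comm]
  refine sum_congr rfl fun l hl => sum_congr rfl fun l' hl' => ?_
  rw [hs l hl l' hl']
  ring

include hi in
/-- idempotence -/
theorem lap_lap (u : ℤ → ℝ) {l : ℤ} (hl : l ∈ lbs L) : lap L q (lap L q u) l = lap L q u l := by
  unfold lap
  simp only [sum_mul]
  rw [sum_comm]
  refine sum_congr rfl fun l' hl' => ?_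
  rw [← hi l' hl' l hl, mul_sum]
  exact sum_congr rfl fun l'' _ => by ring

include hs hi in
theorem ldot_lap_lap (u v : ℤ → ℝ) : ldot L (lap L q u) (lap L q v) = ldot L (lap L q u) v := by
  rw [← ldot_lap hs]
  exact sum_congr rfl fun l hl => by rw [lap_lap hi u hl]

include hs hi in
/-- Pythagoras, polarised. -/
theorem ldot_split (u v : ℤ → ℝ) :
    ldot L (fun l => u l - lap L q u l) (fun l => v l - lap L q v l) +
      ldot L (lap L q u) (lap L q v) = ldot L u v := by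
  rw [ldot_sub_left, ldot_sub_right, ldot_sub_right, ← ldot_lap hs u v,
    ldot_lap_lap hs hi u v]
  ring

include hs hi in
/-- The projected vector is orthogonal to the rest. -/
theorem ldot_lap_sub (u v : ℤ → ℝ) :
    ldot L (lap L q u) (fun l => v l - lap L q v l) = 0 := by
  rw [ldot_sub_right, ldot_lap_lap hs hi, sub_self]

include hs hi in
theorem ldot_lap_self_le (u : ℤ → ℝ) : ldot L (lap L q u) (lap L q u) ≤ ldot L u u := by
  have h := ldot_split hs hi u u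
  have h2 : 0 ≤ ldot L (fun l => u l - lap L q u l) (fun l => u l - lap L q u l) :=
    sum_nonneg fun l _ => mul_self_nonneg _
  linarith

end point

/-! ### the matrix of a label projection -/

theorem val_mem (K : ℕ) (m : ℤ) (i : Ix K) : (2 : ℤ) ^ K * m + val K i ∈ iv K m := by
  have h := val_lt K i
  have h2 : (val K i : ℤ) < 2 ^ K := by exact_mod_cast h
  rw [iv, mem_Ico]
  constructor <;> omega

/-- The matrix of a family of label matrices, on the fine middle block of scale `K` and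
index `m`. -/
def PM (L K : ℕ) (p : ℤ → ℤ → ℤ → ℝ) (m : ℤ) : Matrix (Ix K) (Ix K) ℝ := fun i j =>
  if ix L (2 ^ K * m + val K i) = ix L (2 ^ K * m + val K j) then
    p (ix L (2 ^ K * m + val K i)) (lb L (2 ^ K * m + val K i)) (lb L (2 ^ K * m + val K j))
  else 0

theorem PM_apply (L K : ℕ) (p : ℤ → ℤ → ℤ → ℝ) (m : ℤ) (i j : Ix K) :
    PM L K p m i j = if ix L (2 ^ K * m + val K i) = ix L (2 ^ K * m + val K j) then
      p (ix L (2 ^ K * m + val K i)) (lb L (2 ^ K * m + val K i)) (lb L (2 ^ K * m + val K j))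
      else 0 := rfl

theorem prj_PM {k : ℕ} {m : ℤ} {p : ℤ → ℤ → ℤ → ℝ} (h : LPrj L (iv k m) p) :
    Prj (PM L (k + L) p m) := by
  constructor
  · ext i j
    rw [transpose_apply, PM_apply, PM_apply]
    by_cases hij : ix L (2 ^ (k + L) * m + val (k + L) j) = ix L (2 ^ (k + L) * m + val (k + L) i)
    · rw [if_pos hij, if_pos hij.symm, hij]
      exact h.symm _ (mem_iv_add.1 (val_mem _ m i)) _ (lb_mem L _) _ (lb_mem L _)
    · rw [if_neg hij, if_neg fun h => hij h.symm]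
  · ext i j
    rw [Matrix.mul_apply]
    simp only [PM_apply]
    set y := (2 : ℤ) ^ (k + L) * m + val (k + L) i with hy
    set y' := (2 : ℤ) ^ (k + L) * m + val (k + L) j with hy'
    rw [← sum_iv (k + L) m fun z => (if ix L y = ix L z then p (ix L y) (lb L y) (lb L z) else 0) *
      (if ix L z = ix L y' then p (ix L z) (lb L z) (lb L y') else 0),
      sum_iv_add L k m fun l z => (if ix L y = z then p (ix L y) (lb L y) l else 0) *
      (if z = ix L y' then p z l (lb L y') else 0)]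
    have hmem : ix L y ∈ iv k m := mem_iv_add.1 (val_mem _ m i)
    rw [sum_eq_single_of_mem (ix L y) hmem]
    · by_cases hyy : ix L y = ix L y'
      · simp only [if_true, if_pos hyy]
        exact h.idem _ hmem _ (lb_mem L _) _ (lb_mem L _)
      · simp only [if_neg hyy, mul_zero, sum_const_zero]
    · intro z _ hz
      refine sum_eq_zero fun l _ => ?_
      rw [if_neg fun h => hz h.symm, zero_mul]

/-- The samples of the projected function. -/
theorem smp_mul_PM (a k : ℕ) (p : ℤ → ℤ → ℤ → ℝ) (F : ℤ → ℤ → ℤ → ℝ) (u m : ℤ) :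
    smp a (k + L) (encR L F) u (2 ^ (k + L) * m) * PM L (k + L) p m =
      smp a (k + L) (encR L (lprR L p F)) u (2 ^ (k + L) * m) := by
  ext i j
  rw [Matrix.mul_apply]
  simp only [smp, PM_apply, encR_apply]
  set x := u + val a i with hx
  set y' := (2 : ℤ) ^ (k + L) * m + val (k + L) j with hy'
  have hmem : ix L y' ∈ iv k m := mem_iv_add.1 (val_mem _ m j)
  rw [← sum_iv (k + L) m fun z => √(2 ^ L) * F (lb L z) (ix L x) (ix L z) *
    (if ix L z = ix L y' then p (ix L z) (lb L z) (lb L y') else 0),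
    sum_iv_add L k m fun l z => √(2 ^ L) * F l (ix L x) z *
    (if z = ix L y' then p z l (lb L y') else 0), sum_eq_single_of_mem (ix L y') hmem]
  · simp only [if_true]
    rw [lprR_apply, mul_sum]
    exact sum_congr rfl fun l _ => by ring
  · intro z _ hz
    refine sum_eq_zero fun l _ => ?_
    rw [if_neg hz, mul_zero]

/-- **The removed Gram matrix is the Gram matrix of the removed function.** -/
theorem PM_Xg_PM (a k : ℕ) {p : ℤ → ℤ → ℤ → ℝ} {m : ℤ} (h : LPrj L (iv k m) p)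
    (F : ℤ → ℤ → ℤ → ℝ) (n : ℤ) :
    PM L (k + L) p m * Xg a (k + L) (encR L F) n m * PM L (k + L) p m =
      Xg a (k + L) (encR L (lprR L p F)) n m := by
  have hs := (prj_PM h).1
  rw [Xg, Xg, ← smp_mul_PM, transpose_mul, hs, Matrix.mul_smul, Matrix.smul_mul]
  simp only [Matrix.mul_assoc]

/-- The trace of the removed part. -/
theorem trace_PM_Xg (a k : ℕ) {p : ℤ → ℤ → ℤ → ℝ} {m : ℤ} (h : LPrj L (iv k m) p)
    (F : ℤ → ℤ → ℤ → ℝ) (n : ℤ) :
    (PM L (k + L) p m * Xg (a + L) (k + L) (encR L F) n m).trace =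
      ∑ l ∈ lbs L, (Xg a k (lprR L p F l) n m).trace := by
  rw [← trace_encR L a k (lprR L p F) n m, ← PM_Xg_PM (a + L) k h, H170.Prj.trace (prj_PM h)]

/-- The square of the Hilbert–Schmidt norm of the removed Gram matrix. -/
theorem hs_PM_Xg_PM (a k : ℕ) {p : ℤ → ℤ → ℤ → ℝ} {m : ℤ} (h : LPrj L (iv k m) p)
    (F : ℤ → ℤ → ℤ → ℝ) (n : ℤ) :
    H170.hs (PM L (k + L) p m * Xg (a + L) (k + L) (encR L F) n m * PM L (k + L) p m) ^ 2 =
      s4R L a k (lprR L p F) n m := by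
  rw [PM_Xg_PM (a + L) k h, hs_Xg_sq, s4_encR]

/-! ### the event of 170 on the fine grid -/

/-- The matrices of the label events at all the scales of the fine grid. -/
def PMs (L : ℕ) (p : ℕ → ℤ → ℤ → ℤ → ℤ → ℤ → ℝ) (K : ℕ) (n m : ℤ) : Matrix (Ix K) (Ix K) ℝ :=
  if L ≤ K then PM L K (p (K - L) n m) m else 0

theorem PMs_add (L : ℕ) (p : ℕ → ℤ → ℤ → ℤ → ℤ → ℤ → ℝ) (k : ℕ) (n m : ℤ) :
    PMs L p (k + L) n m = PM L (k + L) (p k n m) m := by
  unfold PMs
  rw [if_pos (by omega), Nat.add_sub_cancel]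

theorem PMs_lt (p : ℕ → ℤ → ℤ → ℤ → ℤ → ℤ → ℝ) {K : ℕ} (hK : K < L) (n m : ℤ) :
    PMs L p K n m = 0 := by
  unfold PMs
  rw [if_neg (by omega)]

theorem smp_zero (a b : ℕ) (u v : ℤ) : smp a b (0 : ℤ → ℤ → ℝ) u v = 0 := rfl

/-- One scale. -/
theorem midP_encR {k : ℕ} {p : ℤ → ℤ → ℤ → ℤ → ℤ → ℝ} {F G : ℤ → ℤ → ℤ → ℝ}
    (hp : ∀ n ∈ iv (N - k) R, ∀ m ∈ iv (N - k) S, LPrj L (iv k m) (p n m))
    (hG : ∀ n ∈ iv (N - k) R, ∀ m ∈ iv (N - k) S, ∀ l ∈ lbs L, ∀ x ∈ iv k n, ∀ y ∈ iv k m,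
      G l x y = F l x y - lprR L (p n m) F l x y) :
    MidP (N + L) R S (k + L) (fun n m => PM L (k + L) (p n m) m) (encR L F) (encR L G) := by
  intro n hn m hm
  rw [show N + L - (k + L) = N - k by omega] at hn hm
  refine ⟨prj_PM (hp n hn m hm), ?_⟩
  rw [Matrix.mul_sub, Matrix.mul_one, smp_mul_PM]
  ext i j
  simp only [smp, Matrix.sub_apply, encR_apply]
  rw [hG n hn m hm _ (lb_mem L _) _ (mem_iv_add.1 (val_mem _ n i)) _
    (mem_iv_add.1 (val_mem _ m j))]
  ring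

/-- **The label events of a labelled path are events `MidP` of the encoded path.** -/
theorem midP_shF {p : ℕ → ℤ → ℤ → ℤ → ℤ → ℤ → ℝ} {F G : ℕ → ℤ → ℤ → ℤ → ℝ} (h0 : F 0 = 0)
    (hp : ∀ k < N, ∀ n ∈ iv (N - k) R, ∀ m ∈ iv (N - k) S, LPrj L (iv k m) (p k n m))
    (hG : ∀ k < N, ∀ n ∈ iv (N - k) R, ∀ m ∈ iv (N - k) S, ∀ l ∈ lbs L, ∀ x ∈ iv k n,
      ∀ y ∈ iv k m, G k l x y = F (k + 1) l x y - lprR L (p k n m) (F (k + 1)) l x y) :
    ∀ K < N + L, MidP (N + L) R S K (PMs L p K) (shF L (fun k => encR L (F k)) (K + 1))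
      (shF L (fun k => encR L (G k)) K) := by
  intro K hK
  rcases lt_or_ge K L with hKL | hKL
  · intro n _ m _
    rw [PMs_lt p hKL, (shF_low (G := fun k => encR L (F k)) (by rw [h0, encR_zero]) hKL).1,
      shF_lt _ hKL]
    refine ⟨Prj.zero, ?_⟩
    rw [smp_zero, Matrix.zero_mul]
  · obtain ⟨j, rfl⟩ := Nat.exists_eq_add_of_le' hKL
    rw [show j + L + 1 = (j + 1) + L by ring, shF_add, shF_add]
    have e : PMs L p (j + L) = fun n m => PM L (j + L) (p j n m) m := by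
      funext n m
      exact PMs_add L p j n m
    rw [e]
    exact midP_encR (hp j (by omega)) (hG j (by omega))

/-- Off the events the matrix is zero. -/
theorem PMs_eq_zero {p : ℕ → ℤ → ℤ → ℤ → ℤ → ℤ → ℝ} {k : ℕ} {n m : ℤ}
    (h : ∀ y ∈ iv k m, ∀ l ∈ lbs L, ∀ l' ∈ lbs L, p k n m y l l' = 0) :
    PMs L p (k + L) n m = 0 := by
  rw [PMs_add]
  ext i j
  rw [PM_apply, Matrix.zero_apply]
  split_ifs
  · exact h _ (mem_iv_add.1 (val_mem _ m i)) _ (lb_mem L _) _ (lb_mem L _)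
  · rfl

theorem evP_PMs {E : ℕ → ℤ → ℤ → Prop} {p : ℕ → ℤ → ℤ → ℤ → ℤ → ℤ → ℝ}
    (h : ∀ k n m, ¬ E k n m → ∀ y ∈ iv k m, ∀ l ∈ lbs L, ∀ l' ∈ lbs L, p k n m y l l' = 0)
    {K : ℕ} {n m : ℤ} (he : evP (PMs L p K) n m) : shQ L E K n m := by
  rcases lt_or_ge K L with hKL | hKL
  · exact absurd (PMs_lt p hKL n m) he
  · obtain ⟨j, rfl⟩ := Nat.exists_eq_add_of_le' hKL
    refine ⟨hKL, ?_⟩
    rw [Nat.add_sub_cancel]
    by_contra hE
    exact he (PMs_eq_zero (h j n m hE))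

/-! ### label on the outer variable -/

theorem gkS_ldot (L a b : ℕ) (n : ℤ) (F H : ℤ → ℤ → ℤ → ℝ) (y y' : ℤ) :
    gkS L a b n F H y y' = ((2 : ℝ) ^ a * 2 ^ b)⁻¹ *
      ∑ x ∈ iv a n, ldot L (fun l => F l x y) (fun l => H l x y') := gkS_eq ..

/-- The Gram kernel splits. -/
theorem gkS_split {a : ℕ} (b : ℕ) {n : ℤ} {p : ℤ → ℤ → ℤ → ℝ} (h : LPrj L (iv a n) p)
    {F G : ℤ → ℤ → ℤ → ℝ} {y y' : ℤ}
    (hG : ∀ l ∈ lbs L, ∀ x ∈ iv a n, G l x y = F l x y - lprL L p F l x y)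
    (hG' : ∀ l ∈ lbs L, ∀ x ∈ iv a n, G l x y' = F l x y' - lprL L p F l x y') :
    gkS L a b n F F y y' = gkS L a b n G G y y' +
      gkS L a b n (lprL L p F) (lprL L p F) y y' := by
  rw [gkS_ldot, gkS_ldot, gkS_ldot, ← mul_add, ← sum_add_distrib]
  congr 1
  refine sum_congr rfl fun x hx => ?_
  rw [← ldot_split (h.symm x hx) (h.idem x hx)]
  congr 1
  refine sum_congr rfl fun l hl => ?_
  simp only
  rw [hG l hl x hx, hG' l hl x hx]
  rfl

/-- **Outer orientation: the Gram matrix splits orthogonally.** -/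
theorem Xg_encL_split {a : ℕ} (b : ℕ) {n m : ℤ} {p : ℤ → ℤ → ℤ → ℝ} (h : LPrj L (iv a n) p)
    {F G : ℤ → ℤ → ℤ → ℝ}
    (hG : ∀ l ∈ lbs L, ∀ x ∈ iv a n, ∀ y ∈ iv b m, G l x y = F l x y - lprL L p F l x y) :
    Xg (a + L) (b + L) (encL L F) n m =
      Xg (a + L) (b + L) (encL L G) n m + Xg (a + L) (b + L) (encL L (lprL L p F)) n m := by
  ext j j'
  rw [Matrix.add_apply, Xg_gk, Xg_gk, Xg_gk, gk_encL, gk_encL, gk_encL, ← mul_add]
  congr 1
  exact gkS_split b h (fun l hl x hx => hG l hl x hx _ (mem_iv_add.1 (val_mem _ m j)))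
    (fun l hl x hx => hG l hl x hx _ (mem_iv_add.1 (val_mem _ m j')))

/-- The samples of the projected function, label on the outer variable: the projection acts on
the left. -/
theorem PM_mul_smp (k b : ℕ) {p : ℤ → ℤ → ℤ → ℝ} {n : ℤ} (h : LPrj L (iv k n) p)
    (F : ℤ → ℤ → ℤ → ℝ) (v : ℤ) :
    PM L (k + L) p n * smp (k + L) b (encL L F) (2 ^ (k + L) * n) v =
      smp (k + L) b (encL L (lprL L p F)) (2 ^ (k + L) * n) v := by
  ext i j
  rw [Matrix.mul_apply]
  simp only [smp, PM_apply, encL_apply]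
  set y := v + val b j with hy
  set x := (2 : ℤ) ^ (k + L) * n + val (k + L) i with hx
  have hmem : ix L x ∈ iv k n := mem_iv_add.1 (val_mem _ n i)
  rw [← sum_iv (k + L) n fun z => (if ix L x = ix L z then p (ix L x) (lb L x) (lb L z) else 0) *
    (√(2 ^ L) * F (lb L z) (ix L z) (ix L y)),
    sum_iv_add L k n fun l z => (if ix L x = z then p (ix L x) (lb L x) l else 0) *
    (√(2 ^ L) * F l z (ix L y)), sum_eq_single_of_mem (ix L x) hmem]
  · simp only [if_true]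
    rw [lprL_apply, mul_sum]
    refine sum_congr rfl fun l hl => ?_
    rw [h.symm _ hmem _ (lb_mem L x) l hl]
    ring
  · intro z _ hz
    refine sum_eq_zero fun l _ => ?_
    rw [if_neg fun h => hz h.symm, zero_mul]

end

end Vale.Agent.P141.H338
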